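import Vale.Agent.P235.Ladder.Menger

/-!
Ladders between two paths, and hitting sets for connected sets in graphs without long ladders.
-/

open SimpleGraph

namespace Vale.Agent.P235.Ladder

variable {V : Type}

/-- The edges of `G` inside `W`. -/
def res (G : SimpleGraph V) (W : Finset V) : SimpleGraph V where
  Adj x y := G.Adj x y ∧ x ∈ W ∧ y ∈ W
  symm := ⟨fun _ _ h => ⟨h.1.symm, h.2.2, h.2.1⟩⟩
  loopless := ⟨fun _ h => h.1.ne rfl⟩

/-- `W` induces a connected subgraph (or is empty). -/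
def Conn (G : SimpleGraph V) (W : Finset V) : Prop :=
  ∀ x ∈ W, ∀ y ∈ W, (res G W).Reachable x y

/-- Two disjoint paths joined by `g` pairwise disjoint connected sets, all inside `W`. -/
def Lad (G : SimpleGraph V) (W : Finset V) (g : ℕ) (A B : List V) : Prop :=
  (A.Nodup ∧ B.Nodup ∧ A.IsChain G.Adj ∧ B.IsChain G.Adj) ∧
    (∀ a ∈ A, a ∈ W) ∧ (∀ b ∈ B, b ∈ W) ∧ A.Disjoint B ∧
      ∃ R : Fin g → Finset V,
        (∀ i, R i ⊆ W ∧ Conn G (R i) ∧ (∃ a ∈ R i, a ∈ A) ∧ ∃ b ∈ R i, b ∈ B) ∧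
          ∀ i j, i ≠ j → Disjoint (R i) (R j)

/-- No two disjoint paths are joined by `N` disjoint connected sets. -/
def NoLad (G : SimpleGraph V) (N : ℕ) : Prop := ∀ W A B, ¬ Lad G W N A B

variable {G : SimpleGraph V}

theorem lad_mono {W : Finset V} {g g' : ℕ} {A B : List V} (h : g ≤ g') (hl : Lad G W g' A B) :
    Lad G W g A B := by
  obtain ⟨h1, h2, h3, h4, R, hR, hd⟩ := hl
  exact ⟨h1, h2, h3, h4, fun i => R (Fin.castLE h i), fun i => hR _,
    fun i j hij => hd _ _ fun e => hij (Fin.castLE_injective h e)⟩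

theorem lad_lt {W : Finset V} {g N : ℕ} {A B : List V} (hN : NoLad G N) (hl : Lad G W g A B) :
    g < N := by
  by_contra h
  exact hN W A B (lad_mono (not_lt.mp h) hl)

theorem res_le (G : SimpleGraph V) (W : Finset V) : res G W ≤ G := fun _ _ h => h.1

theorem res_mono (G : SimpleGraph V) {W W' : Finset V} (h : W ⊆ W') : res G W ≤ res G W' :=
  fun _ _ ha => ⟨ha.1, h ha.2.1, h ha.2.2⟩

theorem res_support {W : Finset V} {a b : V} (p : (res G W).Walk a b) (ha : a ∈ W) :
    ∀ z ∈ p.support, z ∈ W := by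
  induction p with
  | nil => simpa using ha
  | cons h p ih =>
    intro z hz
    rcases List.mem_cons.mp (by simpa using hz) with rfl | hz
    · exact ha
    · exact ih h.2.2 z hz

theorem to_res {W : Finset V} {a b : V} (p : G.Walk a b) (h : ∀ z ∈ p.support, z ∈ W) :
    ∃ q : (res G W).Walk a b, q.support = p.support := by
  induction p with
  | nil => exact ⟨Walk.nil, rfl⟩
  | @cons u v w hadj p ih =>
    obtain ⟨q, hq⟩ := ih fun z hz => h z (by simp [hz])
    have hr : (res G W).Adj u v :=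
      ⟨hadj, h u (Walk.start_mem_support _), h v (List.mem_cons_of_mem _ p.start_mem_support)⟩
    exact ⟨Walk.cons hr q, congrArg (List.cons u) hq⟩

theorem conn_support [DecidableEq V] {a b : V} (p : G.Walk a b) :
    Conn G p.support.toFinset := by
  have key : ∀ x ∈ p.support.toFinset, (res G p.support.toFinset).Reachable a x := by
    intro x hx
    obtain ⟨q, -⟩ := to_res (W := p.support.toFinset) (p.takeUntil x (List.mem_toFinset.mp hx))
      fun z hz => List.mem_toFinset.mpr (Walk.support_takeUntil_subset_support _ _ hz)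
    exact ⟨q⟩
  exact fun x hx y hy => (key x hx).symm.trans (key y hy)

/-- A path meeting all members of a pairwise intersecting family of connected sets. -/
theorem exists_path_meet [Fintype V] [DecidableEq V] (𝒟 : Finset (Finset V))
    (hD : ∀ D ∈ 𝒟, Conn G D) (hint : ∀ D ∈ 𝒟, ∀ D' ∈ 𝒟, ∃ z ∈ D, z ∈ D') (hne : 𝒟.Nonempty) :
    ∃ (a b : V) (p : G.Walk a b), p.IsPath ∧ ∀ D ∈ 𝒟, ∃ z ∈ D, z ∈ p.support := by
  classical
  suffices H : ∀ n (a b : V) (p : G.Walk a b), p.IsPath →
      (∃ D ∈ 𝒟, b ∈ D ∧ ∀ z ∈ p.support, z ∈ D → z = b) →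
      (𝒟.filter fun D => ∀ z ∈ D, z ∉ p.support).card = n →
      ∃ (a b : V) (p : G.Walk a b), p.IsPath ∧ ∀ D ∈ 𝒟, ∃ z ∈ D, z ∈ p.support by
    obtain ⟨D, hD'⟩ := hne
    obtain ⟨b, hb, -⟩ := hint D hD' D hD'
    exact H _ b b Walk.nil Walk.IsPath.nil ⟨D, hD', hb, fun z hz _ => by simpa using hz⟩ rfl
  intro n
  induction n using Nat.strong_induction_on with
  | _ n ih =>
    rintro a b p hp ⟨D, hD', hb, honly⟩ hn
    by_cases hall : ∀ D ∈ 𝒟, ∃ z ∈ D, z ∈ p.support
    · exact ⟨a, b, p, hp, hall⟩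
    push Not at hall
    obtain ⟨D', hD'', hno⟩ := hall
    obtain ⟨c, hc, hc'⟩ := hint D hD' D' hD''
    obtain ⟨r⟩ := hD D hD' b hb c hc
    obtain ⟨x, q, hx, hq, hsub, hqo⟩ :=
      first_hit (res G D) (· ∈ D') r ⟨c, r.end_mem_support, hc'⟩
    have hqD : ∀ z ∈ q.support, z ∈ D := res_support q hb
    set q' := q.mapLe (res_le G D) with hq'
    have hqs : q'.support = q.support := Walk.support_mapLe_eq_support _ _
    have hnew : (p.append q').IsPath := by
      rw [Walk.isPath_def, Walk.support_append, List.nodup_append']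
      refine ⟨hp.support_nodup, ?_, ?_⟩
      · rw [hqs]; exact hq.support_nodup.tail
      · intro z hz1 hz2
        rw [hqs] at hz2
        have hzb := honly z hz1 (hqD z (List.mem_of_mem_tail hz2))
        have := hq.support_nodup
        rw [← Walk.cons_tail_support q, List.nodup_cons] at this
        exact this.1 (hzb ▸ hz2)
    refine ih _ ?_ a x (p.append q') hnew ⟨D', hD'', hx, ?_⟩ rfl
    · rw [← hn]
      refine Finset.card_lt_card ⟨?_, fun hsub' => ?_⟩
      · intro E hE
        rw [Finset.mem_filter] at hE ⊢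
        exact ⟨hE.1, fun z hz h => hE.2 z hz ((Walk.mem_support_append_iff _ _).mpr (Or.inl h))⟩
      · exact (Finset.mem_filter.mp (hsub' (Finset.mem_filter.mpr ⟨hD'', hno⟩))).2 x hx
          (Walk.end_mem_support _)
    · intro z hz hzD
      rcases (Walk.mem_support_append_iff _ _).mp hz with h | h
      · exact absurd h (hno z hzD)
      · exact hqo z (hqs ▸ h) hzD

/-- Bramble lemma: a pairwise intersecting family of connected sets has a small hitting set. -/
theorem hit_bramble [Fintype V] [DecidableEq V] {N : ℕ} (hN : NoLad G N)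
    (𝒟 : Finset (Finset V)) (hD : ∀ D ∈ 𝒟, Conn G D)
    (hint : ∀ D ∈ 𝒟, ∀ D' ∈ 𝒟, ∃ z ∈ D, z ∈ D') :
    ∃ X : Finset V, X.card ≤ 2 * N ∧ ∀ D ∈ 𝒟, ∃ x ∈ X, x ∈ D := by
  classical
  rcases 𝒟.eq_empty_or_nonempty with rfl | hne
  · exact ⟨∅, by simp, by simp⟩
  by_contra hno
  push Not at hno
  obtain ⟨a, b, p, hp, hmeet⟩ := exists_path_meet 𝒟 hD hint hne
  let Hs : List V → Prop := fun l => ∃ Z : Finset V, Z.card < N ∧
    ∀ D ∈ 𝒟, (∃ z ∈ D, z ∈ l) → ∃ x ∈ Z, x ∈ D
  set l := p.support with hl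
  rcases Nat.eq_zero_or_pos N with rfl | hN0
  · exact hN Finset.univ [] [] ⟨by simp, by simp, by simp, by simp, fun i => i.elim0,
      fun i => i.elim0, fun i => i.elim0⟩
  have hall : ¬ Hs (l.take l.length) := by
    rintro ⟨Z, hZ, hhit⟩
    rw [List.take_length] at hhit
    obtain ⟨D, hD', h⟩ := hno Z (by omega)
    obtain ⟨x, hx, hxD⟩ := hhit D hD' (hmeet D hD')
    exact h x hx hxD
  have hex : ∃ j, ¬ Hs (l.take j) := ⟨_, hall⟩
  set j := Nat.find hex with hj
  have hj1 : ¬ Hs (l.take j) := Nat.find_spec hex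
  have hj0 : j ≠ 0 := by
    intro h0
    exact hj1 ⟨∅, by simpa using hN0, fun D _ ⟨z, _, hz⟩ => by simp [h0] at hz⟩
  obtain ⟨i, hji⟩ := Nat.exists_eq_succ_of_ne_zero hj0
  have hjl : j ≤ l.length := Nat.find_min' hex hall
  have hi : Hs (l.take i) := not_not.mp (Nat.find_min hex (by omega))
  obtain ⟨Z1, hZ1, hhit1⟩ := hi
  have hsuf : ¬ Hs (l.drop j) := by
    rintro ⟨Z2, hZ2, hhit2⟩
    have hil : i < l.length := by omega
    obtain ⟨D, hD', h⟩ := hno (insert l[i] (Z1 ∪ Z2)) (by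
      have := Finset.card_insert_le l[i] (Z1 ∪ Z2)
      have := Finset.card_union_le Z1 Z2
      omega)
    obtain ⟨z, hzD, hz⟩ := hmeet D hD'
    rw [← List.take_append_drop j l, List.mem_append] at hz
    rcases hz with hz | hz
    · rw [hji, Nat.succ_eq_add_one, List.take_succ_eq_append_getElem hil, List.mem_append] at hz
      rcases hz with hz | hz
      · obtain ⟨x, hx, hxD⟩ := hhit1 D hD' ⟨z, hzD, hz⟩
        exact h x (by simp [hx]) hxD
      · rw [List.mem_singleton] at hz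
        exact h z (by simp [hz]) hzD
    · obtain ⟨x, hx, hxD⟩ := hhit2 D hD' ⟨z, hzD, hz⟩
      exact h x (by simp [hx]) hxD
  have hlink : Linked G (l.take j).toFinset (l.drop j).toFinset N := by
    refine menger G _ _ N fun Z hZ => ?_
    by_contra hlt
    have h1 : ∀ l' : List V, ¬ Hs l' → ∃ D ∈ 𝒟, (∃ z ∈ D, z ∈ l') ∧ ∀ x ∈ Z, x ∉ D := by
      intro l' h
      by_contra hn
      push Not at hn
      exact h ⟨Z, by omega, fun D hD' hm => hn D hD' hm⟩
    obtain ⟨D1, hD1, ⟨z1, hz1D, hz1⟩, hav1⟩ := h1 _ hj1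
    obtain ⟨D2, hD2, ⟨z2, hz2D, hz2⟩, hav2⟩ := h1 _ hsuf
    obtain ⟨c, hc1, hc2⟩ := hint D1 hD1 D2 hD2
    obtain ⟨r1⟩ := hD D1 hD1 z1 hz1D c hc1
    obtain ⟨r2⟩ := hD D2 hD2 c hc2 z2 hz2D
    obtain ⟨x, hxZ, hx⟩ := hZ z1 (List.mem_toFinset.mpr hz1) z2 (List.mem_toFinset.mpr hz2)
      ((r1.mapLe (res_le _ _)).append (r2.mapLe (res_le _ _)))
    rcases (Walk.mem_support_append_iff _ _).mp hx with h' | h'
    · rw [Walk.support_mapLe_eq_support] at h'
      exact hav1 x hxZ (res_support r1 hz1D x h')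
    · rw [Walk.support_mapLe_eq_support] at h'
      exact hav2 x hxZ (res_support r2 hc2 x h')
  obtain ⟨s, t, q, hst, hdis⟩ := hlink
  have hnd : (l.take j ++ l.drop j).Nodup := by rw [List.take_append_drop]; exact hp.support_nodup
  rw [List.nodup_append'] at hnd
  refine hN Finset.univ (l.take j) (l.drop j) ⟨⟨hnd.1, hnd.2.1, ?_, ?_⟩,
    fun _ _ => Finset.mem_univ _, fun _ _ => Finset.mem_univ _, hnd.2.2,
    fun i => (q i).support.toFinset, fun i => ⟨Finset.subset_univ _, conn_support _,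
      ⟨s i, List.mem_toFinset.mpr (q i).start_mem_support, List.mem_toFinset.mp (hst i).1⟩,
      ⟨t i, List.mem_toFinset.mpr (q i).end_mem_support, List.mem_toFinset.mp (hst i).2⟩⟩,
    fun i i' hne' => Finset.disjoint_left.mpr fun z h1 h2 =>
      hne' (hdis i i' z (List.mem_toFinset.mp h1) (List.mem_toFinset.mp h2))⟩
  · exact p.isChain_adj_support.take _
  · exact p.isChain_adj_support.drop _

/-- The hitting bound. -/
def hit (N : ℕ) : ℕ → ℕ
  | 0 => 0
  | n + 1 => 2 * N + (n + 1) * hit N n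

/-- Connected sets with no `n + 1` pairwise disjoint members have a bounded hitting set. -/
theorem hit_family [Fintype V] [DecidableEq V] {N : ℕ} (hN : NoLad G N) :
    ∀ (n : ℕ) (𝔐 : Finset (Finset V)), (∀ M ∈ 𝔐, Conn G M ∧ M.Nonempty) →
      (∀ F ⊆ 𝔐, (∀ M ∈ F, ∀ M' ∈ F, M ≠ M' → Disjoint M M') → F.card ≤ n) →
      ∃ Y : Finset V, Y.card ≤ hit N n ∧ ∀ M ∈ 𝔐, ∃ y ∈ Y, y ∈ M := by
  classical
  intro n
  induction n with
  | zero =>
    intro 𝔐 _ hbd
    refine ⟨∅, by simp, fun M hM => ?_⟩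
    have := hbd {M} (Finset.singleton_subset_iff.mpr hM) (fun a ha b hb h => by
      rw [Finset.mem_singleton] at ha hb
      exact absurd (ha.trans hb.symm) h)
    simp at this
  | succ n ih =>
    intro 𝔐 hM hbd
    let 𝒟 : Finset (Finset V) := Finset.univ.filter fun D => Conn G D ∧
      ∃ F ⊆ 𝔐, F.card = n + 1 ∧ (∀ M ∈ F, M ⊆ D) ∧ ∀ M ∈ F, ∀ M' ∈ F, M ≠ M' → Disjoint M M'
    obtain ⟨X, hX, hXhit⟩ := hit_bramble hN 𝒟 (fun D hD => (Finset.mem_filter.mp hD).2.1) (by
      intro D hD D' hD'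
      by_contra hdis
      push Not at hdis
      obtain ⟨-, -, F, hF, hFc, hFD, hFp⟩ := Finset.mem_filter.mp hD
      obtain ⟨-, -, F', hF', hFc', hFD', hFp'⟩ := Finset.mem_filter.mp hD'
      have hFF : Disjoint F F' := Finset.disjoint_left.mpr fun M h1 h2 => by
        obtain ⟨z, hz⟩ := (hM M (hF h1)).2
        exact hdis z (hFD M h1 hz) (hFD' M h2 hz)
      have := hbd (F ∪ F') (Finset.union_subset hF hF') (by
        intro M h1 M' h2 hne
        rcases Finset.mem_union.mp h1 with h1 | h1 <;> rcases Finset.mem_union.mp h2 with h2 | h2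
        · exact hFp M h1 M' h2 hne
        · exact Finset.disjoint_left.mpr fun z a b => hdis z (hFD M h1 a) (hFD' M' h2 b)
        · exact Finset.disjoint_left.mpr fun z a b => hdis z (hFD M' h2 b) (hFD' M h1 a)
        · exact hFp' M h1 M' h2 hne)
      rw [Finset.card_union_of_disjoint hFF] at this
      omega)
    let rest := 𝔐.filter fun M => ∀ x ∈ X, x ∉ M
    let comp : Finset V → Finset V := fun M =>
      Finset.univ.filter fun y => ∃ x ∈ M, (res G Xᶜ).Reachable x y
    have hmX : ∀ M ∈ rest, M ⊆ Xᶜ := fun M hM' x hx =>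
      Finset.mem_compl.mpr fun h => (Finset.mem_filter.mp hM').2 x h hx
    have hreach : ∀ M ∈ rest, ∀ x ∈ M, ∀ x' ∈ M, (res G Xᶜ).Reachable x x' := fun M hM' x hx x'
      hx' => ((hM M (Finset.mem_filter.mp hM').1).1 x hx x' hx').mono (res_mono G (hmX M hM'))
    have hcompM : ∀ M ∈ rest, M ⊆ comp M := fun M _ x hx =>
      Finset.mem_filter.mpr ⟨Finset.mem_univ x, x, hx, Reachable.refl x⟩
    have hcompX : ∀ M ∈ rest, ∀ y ∈ comp M, y ∉ X := by
      intro M hM' y hy
      obtain ⟨-, x, hx, ⟨w⟩⟩ := Finset.mem_filter.mp hy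
      exact Finset.mem_compl.mp (res_support w (hmX M hM' hx) y w.end_mem_support)
    have hcompC : ∀ M ∈ rest, Conn G (comp M) := by
      intro M hM' y hy y' hy'
      obtain ⟨-, x, hx, hxy⟩ := Finset.mem_filter.mp hy
      obtain ⟨-, x', hx', hxy'⟩ := Finset.mem_filter.mp hy'
      obtain ⟨w⟩ := (hxy.symm.trans (hreach M hM' x hx x' hx')).trans hxy'
      obtain ⟨q, -⟩ := to_res (W := comp M) (w.mapLe (res_le _ _)) (by
        intro z hz
        rw [Walk.support_mapLe_eq_support] at hz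
        exact Finset.mem_filter.mpr ⟨Finset.mem_univ z, x, hx,
          hxy.trans ⟨w.takeUntil z hz⟩⟩)
      exact ⟨q⟩
    have hsub : ∀ C ∈ rest.image comp, ∃ Y : Finset V, Y.card ≤ hit N n ∧
        ∀ M ∈ rest.filter (· ⊆ C), ∃ y ∈ Y, y ∈ M := by
      intro C hC
      obtain ⟨M₀, hM₀, rfl⟩ := Finset.mem_image.mp hC
      refine ih _ (fun M h => hM M (Finset.mem_filter.mp (Finset.mem_filter.mp h).1).1) ?_
      intro F hF hFp
      by_contra hcard
      obtain ⟨F', hF', hF'c⟩ := Finset.exists_subset_card_eq (s := F) (n := n + 1) (by omega)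
      have hF'𝔐 : F' ⊆ 𝔐 := fun M h =>
        (Finset.mem_filter.mp (Finset.mem_filter.mp (hF (hF' h))).1).1
      obtain ⟨x, hxX, hxC⟩ := hXhit (comp M₀) (Finset.mem_filter.mpr ⟨Finset.mem_univ _,
        hcompC M₀ hM₀, F', hF'𝔐, hF'c, fun M h => (Finset.mem_filter.mp (hF (hF' h))).2,
        fun M h M' h' => hFp M (hF' h) M' (hF' h')⟩)
      exact hcompX M₀ hM₀ x hxC hxX
    choose! Y hY hYhit using hsub
    refine ⟨X ∪ (rest.image comp).biUnion Y, ?_, fun M hM' => ?_⟩
    · have hnum : (rest.image comp).card ≤ n + 1 := by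
        choose! pre hpre hpre' using fun C (hC : C ∈ rest.image comp) => Finset.mem_image.mp hC
        have hinj : Set.InjOn pre (rest.image comp : Finset (Finset V)) := fun C hC C' hC' e => by
          rw [← hpre' C (Finset.mem_coe.mp hC), e, hpre' C' (Finset.mem_coe.mp hC')]
        rw [← Finset.card_image_of_injOn hinj]
        refine hbd _ ?_ ?_
        · intro M h
          obtain ⟨C, hC, rfl⟩ := Finset.mem_image.mp h
          exact (Finset.mem_filter.mp (hpre C hC)).1
        · intro M h M' h' hne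
          obtain ⟨C, hC, rfl⟩ := Finset.mem_image.mp h
          obtain ⟨C', hC', rfl⟩ := Finset.mem_image.mp h'
          refine Finset.disjoint_left.mpr fun z a b => hne ?_
          suffices C = C' by rw [this]
          rw [← hpre' C hC, ← hpre' C' hC']
          ext y
          simp only [comp, Finset.mem_filter, Finset.mem_univ, true_and]
          exact ⟨fun ⟨x, hx, h⟩ => ⟨z, b, (hreach _ (hpre C hC) z a x hx).trans h⟩,
            fun ⟨x, hx, h⟩ => ⟨z, a, (hreach _ (hpre C' hC') z b x hx).trans h⟩⟩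
      calc (X ∪ (rest.image comp).biUnion Y).card
          ≤ X.card + ∑ C ∈ rest.image comp, (Y C).card :=
            (Finset.card_union_le _ _).trans (Nat.add_le_add_left Finset.card_biUnion_le _)
        _ ≤ 2 * N + (n + 1) * hit N n := by
            refine Nat.add_le_add hX ((Finset.sum_le_card_nsmul _ _ _ hY).trans ?_)
            exact Nat.mul_le_mul_right _ hnum
    · by_cases hrest : M ∈ rest
      · obtain ⟨y, hy, hyM⟩ := hYhit (comp M) (Finset.mem_image_of_mem _ hrest) M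
          (Finset.mem_filter.mpr ⟨hrest, hcompM M hrest⟩)
        exact ⟨y, Finset.mem_union_right _ (Finset.mem_biUnion.mpr
          ⟨comp M, Finset.mem_image_of_mem _ hrest, hy⟩), hyM⟩
      · simp only [rest, Finset.mem_filter, hM', true_and, not_forall, not_not] at hrest
        obtain ⟨x, hx, hxM⟩ := hrest
        exact ⟨x, Finset.mem_union_left _ hx, hxM⟩

end Vale.Agent.P235.Ladder
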