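import Vale.Agent.P235.Apex
import Vale.Agent.P235.Ladder.Hit

/-!
Embeddings of the subgraphs induced on vertex sets: gluing and deleting vertices.
-/

open SimpleGraph

namespace Vale.Agent.P235.Ladder

variable {V : Type} {G : SimpleGraph V}

/-- Every metric of `G` restricted to `W` embeds in `ℓ¹` componentwise with distortion `C`. -/
def Emb (G : SimpleGraph V) (W : Finset V) (C : ℝ) : Prop :=
  ∀ ℓ : Sym2 V → ℝ, (∀ u v, G.Adj u v → 0 ≤ ℓ s(u, v)) →
    ∃ (m : ℕ) (f : V → Fin m → ℝ), ∀ x ∈ W, ∀ y ∈ W, (res G W).Reachable x y →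
      pathDist (res G W) ℓ x y ≤ ∑ i, |f x i - f y i| ∧
        ∑ i, |f x i - f y i| ≤ C * pathDist (res G W) ℓ x y

theorem res_nonneg {ℓ : Sym2 V → ℝ} (hℓ : ∀ u v, G.Adj u v → 0 ≤ ℓ s(u, v)) (W : Finset V) :
    ∀ u v, (res G W).Adj u v → 0 ≤ ℓ s(u, v) := fun u v h => hℓ u v h.1

theorem emb_mono {W : Finset V} {C C' : ℝ} (h : C ≤ C') (he : Emb G W C) : Emb G W C' := by
  intro ℓ hℓ
  obtain ⟨m, f, hf⟩ := he ℓ hℓ
  exact ⟨m, f, fun x hx y hy hxy => ⟨(hf x hx y hy hxy).1, (hf x hx y hy hxy).2.trans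
    (mul_le_mul_of_nonneg_right h (pathDist_nonneg (res_nonneg hℓ W) x y))⟩⟩

theorem dist_le_add {H : SimpleGraph V} {ℓ : Sym2 V → ℝ} (hℓ : ∀ u v, H.Adj u v → 0 ≤ ℓ s(u, v))
    {u v w : V} (h1 : H.Reachable u v) (h2 : H.Reachable v w) :
    pathDist H ℓ u w ≤ pathDist H ℓ u v + pathDist H ℓ v w := by
  have : Nonempty (H.Walk u v) := h1
  have : Nonempty (H.Walk v w) := h2
  rw [← sub_le_iff_le_add']
  refine le_ciInf fun q => ?_
  rw [sub_le_comm]
  refine le_ciInf fun p => ?_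
  rw [sub_le_iff_le_add]
  refine (pathDist_le hℓ (p.append q)).trans (le_of_eq ?_)
  simp [walkLen]

theorem dist_symm {H : SimpleGraph V} {ℓ : Sym2 V → ℝ} (hℓ : ∀ u v, H.Adj u v → 0 ≤ ℓ s(u, v))
    {u v : V} (h : H.Reachable u v) : pathDist H ℓ u v = pathDist H ℓ v u := by
  have key : ∀ u v, H.Reachable u v → pathDist H ℓ v u ≤ pathDist H ℓ u v := fun u v h => by
    have : Nonempty (H.Walk u v) := h
    refine le_ciInf fun p => (pathDist_le hℓ p.reverse).trans (le_of_eq ?_)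
    simp [walkLen, List.sum_reverse]
  exact le_antisymm (key v u h.symm) (key u v h)

theorem emb_small [DecidableEq V] {W : Finset V} (h : W.card ≤ 2) : Emb G W 1 := by
  intro ℓ hℓ
  rcases W.eq_empty_or_nonempty with rfl | ⟨a, ha⟩
  · exact ⟨0, fun _ => Fin.elim0, fun x hx => absurd hx (Finset.notMem_empty x)⟩
  have hone : ∀ y ∈ W, y ≠ a → ∀ x ∈ W, x = a ∨ x = y := by
    intro y hy hne x hx
    by_contra hc
    push Not at hc
    have : ({a, y, x} : Finset V) ⊆ W := by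
      intro z hz
      simp only [Finset.mem_insert, Finset.mem_singleton] at hz
      rcases hz with rfl | rfl | rfl <;> assumption
    have h3 := Finset.card_le_card this
    rw [Finset.card_insert_of_notMem (by simp [hne.symm, hc.1.symm]),
      Finset.card_insert_of_notMem (by simp [hc.2.symm]), Finset.card_singleton] at h3
    omega
  set d := pathDist (res G W) ℓ with hd
  have hself : ∀ x, d x x = 0 := pathDist_self (res_nonneg hℓ W)
  have hnn : ∀ x y, 0 ≤ d x y := pathDist_nonneg (res_nonneg hℓ W)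
  refine ⟨1, fun x _ => d a x, fun x hx y hy hxy => ?_⟩
  simp only [Fin.sum_univ_one, one_mul]
  suffices |d a x - d a y| = d x y by rw [this]; exact ⟨le_rfl, le_rfl⟩
  by_cases hxa : x = a
  · subst hxa
    rw [hself, zero_sub, abs_neg, abs_of_nonneg (hnn _ _)]
  rcases hone x hx hxa y hy with hya | hya
  · subst hya
    rw [hself, sub_zero, abs_of_nonneg (hnn _ _)]
    exact (dist_symm (res_nonneg hℓ W) hxy).symm
  · subst hya
    rw [hself, sub_self, abs_zero]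

theorem walk_stay {W W1 : Finset V}
    (hst : ∀ u v, (res G W).Adj u v → u ∈ W1 → v ∈ W1) {x y : V} (p : (res G W).Walk x y)
    (hx : x ∈ W1) : ∃ q : (res G W1).Walk x y, q.edges = p.edges := by
  induction p with
  | nil => exact ⟨Walk.nil, rfl⟩
  | @cons u v w h p ih =>
    have hv := hst u v h hx
    obtain ⟨q, hq⟩ := ih hv
    have h' : (res G W1).Adj u v := ⟨h.1, hx, hv⟩
    exact ⟨Walk.cons h' q, congrArg (List.cons s(u, v)) hq⟩

theorem append_sum {m1 m2 : ℕ} (a b : Fin m1 → ℝ) (c d : Fin m2 → ℝ) :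
    ∑ i, |Fin.append a c i - Fin.append b d i| = ∑ i, |a i - b i| + ∑ i, |c i - d i| := by
  rw [Fin.sum_univ_add]
  simp

theorem emb_union [DecidableEq V] {W W1 W2 : Finset V} {C : ℝ} (hW : W = W1 ∪ W2)
    (hd : Disjoint W1 W2)
    (hst : ∀ u v, (res G W).Adj u v → ((u ∈ W1 ↔ v ∈ W1) ∧ (u ∈ W2 ↔ v ∈ W2)))
    (h1 : Emb G W1 C) (h2 : Emb G W2 C) : Emb G W C := by
  intro ℓ hℓ
  obtain ⟨m1, f1, hf1⟩ := h1 ℓ hℓ
  obtain ⟨m2, f2, hf2⟩ := h2 ℓ hℓ
  refine ⟨m1 + m2, fun x => Fin.append (if x ∈ W1 then f1 x else 0) (if x ∈ W2 then f2 x else 0),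
    fun x hx y hy hxy => ?_⟩
  rw [append_sum]
  have hside : ∀ W', (W' = W1 ∨ W' = W2) → x ∈ W' → y ∈ W' ∧ (res G W').Reachable x y ∧
      pathDist (res G W') ℓ x y = pathDist (res G W) ℓ x y := by
    intro W' hW' hxW'
    have hst' : ∀ u v, (res G W).Adj u v → u ∈ W' → v ∈ W' := fun u v h hu => by
      rcases hW' with rfl | rfl
      · exact (hst u v h).1.mp hu
      · exact (hst u v h).2.mp hu
    have hle : res G W' ≤ res G W := res_mono G (by
      rcases hW' with rfl | rfl <;> rw [hW]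
      · exact Finset.subset_union_left
      · exact Finset.subset_union_right)
    obtain ⟨p⟩ := hxy
    obtain ⟨q, -⟩ := walk_stay hst' p hxW'
    refine ⟨res_support q hxW' y q.end_mem_support, ⟨q⟩, le_antisymm ?_ ?_⟩
    · have : Nonempty ((res G W).Walk x y) := ⟨p⟩
      refine le_ciInf fun r => ?_
      obtain ⟨r', hr'⟩ := walk_stay hst' r hxW'
      exact (pathDist_le (res_nonneg hℓ W') r').trans (le_of_eq (by simp [walkLen, hr']))
    · have : Nonempty ((res G W').Walk x y) := ⟨q⟩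
      refine le_ciInf fun r => ?_
      exact (pathDist_le (res_nonneg hℓ W) (r.mapLe hle)).trans (le_of_eq (by simp [walkLen]))
  rcases Finset.mem_union.mp (hW ▸ hx) with hx1 | hx2
  · obtain ⟨hy1, hr, he⟩ := hside W1 (Or.inl rfl) hx1
    have hx2 := Finset.disjoint_left.mp hd hx1
    have hy2 := Finset.disjoint_left.mp hd hy1
    simp only [hx1, hy1, hx2, hy2, if_true, if_false, Pi.zero_apply, sub_self, abs_zero,
      Finset.sum_const_zero, add_zero]
    rw [← he]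
    exact hf1 x hx1 y hy1 hr
  · obtain ⟨hy2, hr, he⟩ := hside W2 (Or.inr rfl) hx2
    have hx1 := Finset.disjoint_right.mp hd hx2
    have hy1 := Finset.disjoint_right.mp hd hy2
    simp only [hx1, hy1, hx2, hy2, if_true, if_false, Pi.zero_apply, sub_self, abs_zero,
      Finset.sum_const_zero, zero_add]
    rw [← he]
    exact hf2 x hx2 y hy2 hr

theorem emb_cut [DecidableEq V] {W W1 W2 : Finset V} {z : V} {C : ℝ} (hC : 0 < C)
    (hW : W = W1 ∪ W2) (hz : W1 ∩ W2 = {z})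
    (hst : ∀ u v, (res G W).Adj u v → (u ∈ W1 ∧ v ∈ W1) ∨ (u ∈ W2 ∧ v ∈ W2))
    (h1 : Emb G W1 C) (h2 : Emb G W2 C) : Emb G W C := by
  intro ℓ hℓ
  obtain ⟨m1, f1, hf1⟩ := h1 ℓ hℓ
  obtain ⟨m2, f2, hf2⟩ := h2 ℓ hℓ
  have hz12 : z ∈ W1 ∧ z ∈ W2 := Finset.mem_inter.mp (hz ▸ Finset.mem_singleton_self z)
  have hboth : ∀ x, x ∈ W1 → x ∈ W2 → x = z := fun x a b =>
    Finset.mem_singleton.mp (hz ▸ Finset.mem_inter.mpr ⟨a, b⟩)
  let r1 : V → V := fun x => if x ∈ W1 then x else z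
  let r2 : V → V := fun x => if x ∈ W2 then x else z
  have hr1 : ∀ x, r1 x ∈ W1 := fun x => by simp only [r1]; split <;> simp [*]
  have hr2 : ∀ x, r2 x ∈ W2 := fun x => by simp only [r2]; split <;> simp [*]
  have e12 : ∀ x ∈ W1, r2 x = z := fun x hx => by
    simp only [r2]; split_ifs with h
    · exact hboth x hx h
    · rfl
  have e21 : ∀ x ∈ W2, r1 x = z := fun x hx => by
    simp only [r1]; split_ifs with h
    · exact hboth x h hx
    · rfl
  have hproj : ∀ {x y : V} (p : (res G W).Walk x y), ∃ (q1 : (res G W1).Walk (r1 x) (r1 y))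
      (q2 : (res G W2).Walk (r2 x) (r2 y)), walkLen ℓ q1 + walkLen ℓ q2 ≤ walkLen ℓ p := by
    intro x y p
    induction p with
    | nil => exact ⟨Walk.nil, Walk.nil, by simp [walkLen]⟩
    | @cons u v w h p ih =>
      obtain ⟨q1, q2, hq⟩ := ih
      rcases hst u v h with ⟨hu, hv⟩ | ⟨hu, hv⟩
      · have hadj : (res G W1).Adj (r1 u) (r1 v) := by
          simp only [r1, if_pos hu, if_pos hv]; exact ⟨h.1, hu, hv⟩
        refine ⟨Walk.cons hadj q1, q2.copy (by rw [e12 u hu, e12 v hv]) rfl, ?_⟩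
        simp only [walkLen, Walk.edges_cons, Walk.edges_copy, List.map_cons, List.sum_cons,
          show r1 u = u from if_pos hu, show r1 v = v from if_pos hv] at hq ⊢
        linarith
      · have hadj : (res G W2).Adj (r2 u) (r2 v) := by
          simp only [r2, if_pos hu, if_pos hv]; exact ⟨h.1, hu, hv⟩
        refine ⟨q1.copy (by rw [e21 u hu, e21 v hv]) rfl, Walk.cons hadj q2, ?_⟩
        simp only [walkLen, Walk.edges_cons, Walk.edges_copy, List.map_cons, List.sum_cons,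
          show r2 u = u from if_pos hu, show r2 v = v from if_pos hv] at hq ⊢
        linarith
  refine ⟨m1 + m2, fun x => Fin.append (f1 (r1 x)) (f2 (r2 x)), fun x hx y hy hxy => ?_⟩
  rw [append_sum]
  have hnW := res_nonneg hℓ W
  obtain ⟨p⟩ := hxy
  obtain ⟨q1, q2, -⟩ := hproj p
  obtain ⟨l1, u1⟩ := hf1 _ (hr1 x) _ (hr1 y) ⟨q1⟩
  obtain ⟨l2, u2⟩ := hf2 _ (hr2 x) _ (hr2 y) ⟨q2⟩
  constructor
  · have hle1 : res G W1 ≤ res G W := res_mono G (hW ▸ Finset.subset_union_left)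
    have hle2 : res G W2 ≤ res G W := res_mono G (hW ▸ Finset.subset_union_right)
    have d1 : pathDist (res G W) ℓ (r1 x) (r1 y) ≤ pathDist (res G W1) ℓ (r1 x) (r1 y) := by
      have : Nonempty ((res G W1).Walk (r1 x) (r1 y)) := ⟨q1⟩
      exact le_ciInf fun r => (pathDist_le hnW (r.mapLe hle1)).trans (le_of_eq (by simp [walkLen]))
    have d2 : pathDist (res G W) ℓ (r2 x) (r2 y) ≤ pathDist (res G W2) ℓ (r2 x) (r2 y) := by
      have : Nonempty ((res G W2).Walk (r2 x) (r2 y)) := ⟨q2⟩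
      exact le_ciInf fun r => (pathDist_le hnW (r.mapLe hle2)).trans (le_of_eq (by simp [walkLen]))
    have R1 : (res G W).Reachable (r1 x) (r1 y) := Reachable.mono hle1 ⟨q1⟩
    have R2 : (res G W).Reachable (r2 x) (r2 y) := Reachable.mono hle2 ⟨q2⟩
    have n1 := pathDist_nonneg hnW (r1 x) (r1 y)
    have n2 := pathDist_nonneg hnW (r2 x) (r2 y)
    rcases Finset.mem_union.mp (hW ▸ hx) with hx1 | hx2 <;>
      rcases Finset.mem_union.mp (hW ▸ hy) with hy1 | hy2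
    · simp only [r1, if_pos hx1, if_pos hy1] at d1 l1 ⊢
      linarith
    · have ex : r1 x = x := if_pos hx1
      have ey : r2 y = y := if_pos hy2
      rw [ex, e21 y hy2] at R1 d1
      rw [e12 x hx1, ey] at R2 d2
      have h3 := dist_le_add hnW R1 R2
      rw [ex, e21 y hy2] at l1 ⊢
      rw [e12 x hx1, ey] at l2 ⊢
      linarith
    · have ex : r2 x = x := if_pos hx2
      have ey : r1 y = y := if_pos hy1
      rw [e21 x hx2, ey] at R1 d1
      rw [ex, e12 y hy1] at R2 d2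
      have h3 := dist_le_add hnW R2 R1
      rw [e21 x hx2, ey] at l1 ⊢
      rw [ex, e12 y hy1] at l2 ⊢
      linarith
    · simp only [r2, if_pos hx2, if_pos hy2] at d2 l2 ⊢
      linarith
  · have : Nonempty ((res G W).Walk x y) := ⟨p⟩
    rw [← div_le_iff₀' hC]
    refine le_ciInf fun r => ?_
    rw [div_le_iff₀' hC]
    obtain ⟨s1, s2, hs⟩ := hproj r
    have b1 := pathDist_le (res_nonneg hℓ W1) s1
    have b2 := pathDist_le (res_nonneg hℓ W2) s2
    calc _ ≤ C * pathDist (res G W1) ℓ (r1 x) (r1 y) + C * pathDist (res G W2) ℓ (r2 x) (r2 y) :=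
          add_le_add u1 u2
      _ ≤ C * walkLen ℓ r := by
          rw [← mul_add]; exact mul_le_mul_of_nonneg_left (by linarith) hC.le

theorem iso_dist {V1 : Type} (φ : V1 → V) (G1 : SimpleGraph V1) (G2 : SimpleGraph V)
    (hinj : Function.Injective φ) (hadj : ∀ a b, G1.Adj a b ↔ G2.Adj (φ a) (φ b))
    (hrange : ∀ x y, G2.Adj x y → ∃ b, φ b = y) (ℓ : Sym2 V → ℝ)
    (hℓ : ∀ u v, G2.Adj u v → 0 ≤ ℓ s(u, v)) (a b : V1) :
    (G1.Reachable a b ↔ G2.Reachable (φ a) (φ b)) ∧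
      (G1.Reachable a b →
        pathDist G1 (fun e => ℓ (e.map φ)) a b = pathDist G2 ℓ (φ a) (φ b)) := by
  set ℓ1 : Sym2 V1 → ℝ := fun e => ℓ (e.map φ) with hℓ1def
  have hℓ1 : ∀ u v, G1.Adj u v → 0 ≤ ℓ1 s(u, v) := fun u v h => by
    simpa [ℓ1] using hℓ _ _ ((hadj u v).mp h)
  let hom : G1 →g G2 := ⟨φ, fun {u v} h => (hadj u v).mp h⟩
  have down : ∀ {x y : V1} (p : G1.Walk x y), walkLen ℓ (p.map hom) = walkLen ℓ1 p := by
    intro x y p
    simp only [walkLen, Walk.edges_map, List.map_map]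
    rfl
  have up : ∀ {x y : V} (p : G2.Walk x y) (a : V1), φ a = x →
      ∃ (b : V1) (q : G1.Walk a b), φ b = y ∧ walkLen ℓ1 q = walkLen ℓ p := by
    intro x y p
    induction p with
    | nil => exact fun a ha => ⟨a, Walk.nil, ha, by simp [walkLen]⟩
    | @cons u v w h p ih =>
      intro a ha
      obtain ⟨c, rfl⟩ := hrange u v h
      subst ha
      obtain ⟨b, q, hb, hq⟩ := ih c rfl
      refine ⟨b, Walk.cons ((hadj a c).mpr h) q, hb, ?_⟩
      simp only [walkLen, Walk.edges_cons, List.map_cons, List.sum_cons] at hq ⊢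
      rw [hq]
      simp [ℓ1]
  have hback : G2.Reachable (φ a) (φ b) → G1.Reachable a b := by
    rintro ⟨p⟩
    obtain ⟨b', q, hb, -⟩ := up p a rfl
    obtain rfl := hinj hb
    exact ⟨q⟩
  refine ⟨⟨fun ⟨p⟩ => ⟨p.map hom⟩, hback⟩, fun hr => le_antisymm ?_ ?_⟩
  · have : Nonempty (G2.Walk (φ a) (φ b)) := ⟨hr.some.map hom⟩
    refine le_ciInf fun p => ?_
    obtain ⟨b', q, hb, hq⟩ := up p a rfl
    obtain rfl := hinj hb
    exact hq ▸ pathDist_le hℓ1 q
  · have : Nonempty (G1.Walk a b) := hr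
    exact le_ciInf fun p => (pathDist_le hℓ (p.map hom)).trans (down p).le

theorem emb_apex [Fintype V] [DecidableEq V] {W S : Finset V} {C : ℝ} (hC : 0 ≤ C)
    (hW : Conn G W) (hne : (S ∩ W).Nonempty) (h : Emb G (W \ S) C) :
    Emb G W (256 * C + 128 * (8 + (Nat.log 2 S.card : ℝ))) := by
  classical
  intro ℓ hℓ
  obtain ⟨m₀, f, hf⟩ := h ℓ hℓ
  obtain ⟨w₀, hw₀⟩ := hne
  have hw₀W : w₀ ∈ W := (Finset.mem_inter.mp hw₀).2
  let U := {x : V // x ∈ W}
  let G1 : SimpleGraph U := G.comap Subtype.val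
  let S1 : Finset U := S.subtype (· ∈ W)
  let ℓ1 : Sym2 U → ℝ := fun e => ℓ (e.map Subtype.val)
  have iso1 := iso_dist (Subtype.val : U → V) G1 (res G W) Subtype.val_injective
    (fun a b => ⟨fun h => ⟨h, a.2, b.2⟩, fun h => h.1⟩) (fun x y h => ⟨⟨y, h.2.2⟩, rfl⟩) ℓ
    (res_nonneg hℓ W)
  have hc1 : G1.Connected := by
    have : Nonempty U := ⟨⟨w₀, hw₀W⟩⟩
    exact ⟨fun a b => (iso1 a b).1.mpr (hW a.1 a.2 b.1 b.2)⟩
  have hℓ1 : ∀ a b, G1.Adj a b → 0 ≤ ℓ1 s(a, b) := fun a b h => by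
    simpa [ℓ1] using hℓ a.1 b.1 h
  have hmem : ∀ a : ↥((↑S1 : Set U)ᶜ), a.1.1 ∈ W \ S := fun a =>
    Finset.mem_sdiff.mpr ⟨a.1.2, fun h => a.2 (Finset.mem_coe.mpr (Finset.mem_subtype.mpr h))⟩
  have iso2 := iso_dist (fun a : ↥((↑S1 : Set U)ᶜ) => a.1.1) (G1.induce (↑S1 : Set U)ᶜ)
    (res G (W \ S)) (fun a b h => Subtype.ext (Subtype.ext h))
    (fun a b => ⟨fun h => ⟨h, hmem a, hmem b⟩, fun h => h.1⟩)
    (fun x y h => ⟨⟨⟨y, (Finset.mem_sdiff.mp h.2.2).1⟩, fun hS =>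
      (Finset.mem_sdiff.mp h.2.2).2 (Finset.mem_subtype.mp (Finset.mem_coe.mp hS))⟩, rfl⟩) ℓ
    (res_nonneg hℓ (W \ S))
  have hS1 : S1.card ≤ S.card := Finset.card_le_card_of_injOn Subtype.val
    (fun a ha => Finset.mem_subtype.mp ha) Subtype.val_injective.injOn
  obtain ⟨m, g, hg⟩ := apex G1 hc1 ℓ1 hℓ1 S1
    ⟨⟨w₀, hw₀W⟩, Finset.mem_subtype.mpr (Finset.mem_inter.mp hw₀).1⟩ C hC m₀
    (fun a => f a.1.1) (by
      intro a b hab
      have h' := hf _ (hmem a) _ (hmem b) ((iso2 a b).1.mp hab)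
      rw [show (fun e : Sym2 ↥((↑S1 : Set U)ᶜ) => ℓ1 (e.map Subtype.val))
        = fun e => ℓ (e.map fun a => a.1.1) from funext fun e => by
          simp [ℓ1, Sym2.map_map, Function.comp_def], (iso2 a b).2 hab]
      exact h')
  refine ⟨m, fun x => if hx : x ∈ W then g ⟨x, hx⟩ else 0, fun x hx y hy hxy => ?_⟩
  simp only [dif_pos hx, dif_pos hy]
  have e := (iso1 ⟨x, hx⟩ ⟨y, hy⟩).2 ((iso1 ⟨x, hx⟩ ⟨y, hy⟩).1.mpr hxy)
  obtain ⟨g1, g2⟩ := hg ⟨x, hx⟩ ⟨y, hy⟩
  rw [e] at g1 g2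
  refine ⟨g1, g2.trans (mul_le_mul_of_nonneg_right ?_ (pathDist_nonneg (res_nonneg hℓ W) x y))⟩
  have : (Nat.log 2 S1.card : ℝ) ≤ (Nat.log 2 S.card : ℝ) := by
    exact_mod_cast Nat.log_mono_right hS1
  linarith

end Vale.Agent.P235.Ladder
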