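import Mathlib

/-!
First hits of walks and Menger's theorem for two vertex sets.
-/

open SimpleGraph

namespace Vale.Agent.P235.Ladder

variable {V : Type}

/-- A walk that reaches `X` contains a path ending at its only vertex in `X`. -/
theorem first_hit (G : SimpleGraph V) (X : V → Prop) {a b : V} (p : G.Walk a b)
    (h : ∃ z ∈ p.support, X z) :
    ∃ (x : V) (q : G.Walk a x), X x ∧ q.IsPath ∧ q.support ⊆ p.support ∧
      ∀ w ∈ q.support, X w → w = x := by
  classical
  induction p with
  | @nil u =>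
    obtain ⟨z, hz, hX⟩ := h
    simp only [Walk.support_nil, List.mem_singleton] at hz
    subst hz
    exact ⟨z, Walk.nil, hX, Walk.IsPath.nil, by simp, fun w hw _ => by simpa using hw⟩
  | @cons u v w hadj p ih =>
    by_cases hu : X u
    · refine ⟨u, Walk.nil, hu, Walk.IsPath.nil, by simp, fun w hw _ => by simpa using hw⟩
    · obtain ⟨z, hz, hX⟩ := h
      have hz' : z ∈ p.support := by
        rcases List.mem_cons.mp (by simpa using hz) with rfl | hz'
        · exact absurd hX hu
        · exact hz'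
      obtain ⟨x, q, hx, -, hsub, honly⟩ := ih ⟨z, hz', hX⟩
      refine ⟨x, (Walk.cons hadj q).bypass, hx, Walk.bypass_isPath _, ?_, ?_⟩
      · intro c hc
        have := Walk.support_bypass_subset_support _ hc
        rw [Walk.support_cons] at this ⊢
        rcases List.mem_cons.mp this with rfl | h'
        · exact List.mem_cons_self
        · exact List.mem_cons_of_mem _ (hsub h')
      · intro c hc hcX
        have := Walk.support_bypass_subset_support _ hc
        rw [Walk.support_cons] at this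
        rcases List.mem_cons.mp this with rfl | h'
        · exact absurd hcX hu
        · exact honly c h' hcX

/-- `S` and `T` are separated by `Z`. -/
def Seps (G : SimpleGraph V) (S T Z : Finset V) : Prop :=
  ∀ s ∈ S, ∀ t ∈ T, ∀ p : G.Walk s t, ∃ z ∈ Z, z ∈ p.support

theorem seps_symm {G : SimpleGraph V} {S T Z : Finset V} (h : Seps G S T Z) : Seps G T S Z :=
  fun t ht s hs p => by
    obtain ⟨z, hz, hzp⟩ := h s hs t ht p.reverse
    exact ⟨z, hz, by simpa using hzp⟩

/-- The vertices reachable from `S` by a walk avoiding `Z`. -/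
def Near (G : SimpleGraph V) (S Z : Finset V) (c : V) : Prop :=
  ∃ s ∈ S, ∃ p : G.Walk s c, ∀ z ∈ p.support, z ∉ Z

theorem near_step {G : SimpleGraph V} {S Z : Finset V} {a c : V} (h : Near G S Z a)
    (hadj : G.Adj a c) (hc : c ∉ Z) : Near G S Z c := by
  obtain ⟨s, hs, p, hp⟩ := h
  refine ⟨s, hs, p.concat hadj, fun z hz => ?_⟩
  rw [Walk.support_concat] at hz
  rcases List.mem_append.mp (by simpa [List.concat_eq_append] using hz :
      z ∈ p.support ++ [c]) with h' | h'
  · exact hp z h'
  · exact (List.mem_singleton.mp h') ▸ hc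

theorem crossing {G : SimpleGraph V} {S T Z : Finset V} {x y : V}
    (hZ : Seps (G.deleteEdges {s(x, y)}) S T Z) {s t : V} (hs : s ∈ S) (ht : t ∈ T)
    (p : G.Walk s t) (hp : ∀ z ∈ p.support, z ∉ Z) :
    (Near (G.deleteEdges {s(x, y)}) S Z x ∧ ¬ Near (G.deleteEdges {s(x, y)}) S Z y) ∨
      (Near (G.deleteEdges {s(x, y)}) S Z y ∧ ¬ Near (G.deleteEdges {s(x, y)}) S Z x) := by
  have h0 : Near (G.deleteEdges {s(x, y)}) S Z s :=
    ⟨s, hs, Walk.nil, fun z hz => by
      simp only [Walk.support_nil, List.mem_singleton] at hz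
      exact hz ▸ hp s p.start_mem_support⟩
  have h1 : ¬ Near (G.deleteEdges {s(x, y)}) S Z t := by
    rintro ⟨s', hs', q, hq⟩
    obtain ⟨z, hz, hzq⟩ := hZ s' hs' t ht q
    exact hq z hzq hz
  obtain ⟨d, hd, hd1, hd2⟩ :=
    p.exists_boundary_dart {c | Near (G.deleteEdges {s(x, y)}) S Z c} h0 h1
  have he : s(d.fst, d.snd) = s(x, y) := by
    by_contra hne
    exact hd2 (near_step hd1 (by rw [deleteEdges_adj]; exact ⟨d.adj, by simpa using hne⟩)
      (hp _ (p.dart_snd_mem_support_of_mem_darts hd)))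
  rcases Sym2.eq_iff.mp he with ⟨e1, e2⟩ | ⟨e1, e2⟩
  · exact Or.inl ⟨e1 ▸ hd1, e2 ▸ hd2⟩
  · exact Or.inr ⟨e1 ▸ hd1, e2 ▸ hd2⟩

theorem stay {G : SimpleGraph V} {S Z : Finset V} {x y : V}
    (hy : ¬ Near (G.deleteEdges {s(x, y)}) S Z y) {a b : V} (p : G.Walk a b) :
    (a = b ∨ Near (G.deleteEdges {s(x, y)}) S Z a) → p.IsPath →
    (∀ w ∈ p.support, (w ∈ Z ∨ w = x) → w = b) →
    ∃ q : (G.deleteEdges {s(x, y)}).Walk a b, q.support ⊆ p.support := by
  induction p with
  | nil => exact fun _ _ _ => ⟨Walk.nil, by simp⟩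
  | @cons u c w hadj p ih =>
    intro ha hpath honly
    rw [Walk.cons_isPath_iff] at hpath
    have hne : u ≠ w := fun h => hpath.2 (h ▸ p.end_mem_support)
    rcases ha with h | ha
    · exact absurd h hne
    have hx : u ≠ x := fun h => hne (honly u (by simp) (Or.inr h))
    have hy' : u ≠ y := fun h => hy (h ▸ ha)
    have hadj' : (G.deleteEdges {s(x, y)}).Adj u c := by
      rw [deleteEdges_adj]
      refine ⟨hadj, fun h => ?_⟩
      rcases Sym2.eq_iff.mp (by simpa using h) with ⟨e1, -⟩ | ⟨e1, -⟩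
      · exact hx e1
      · exact hy' e1
    have hc : c = w ∨ Near (G.deleteEdges {s(x, y)}) S Z c := by
      by_cases hcZ : c ∈ Z
      · exact Or.inl (honly c (by simp) (Or.inl hcZ))
      · exact Or.inr (near_step ha hadj' hcZ)
    obtain ⟨q, hq⟩ := ih hc hpath.1 fun z hz h => honly z (by simp [hz]) h
    exact ⟨Walk.cons hadj' q, by
      simp only [Walk.support_cons]
      exact List.cons_subset_cons _ hq⟩

theorem seps_side [DecidableEq V] {G : SimpleGraph V} {S T Z Z' : Finset V} {x y : V}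
    (hZ : Seps (G.deleteEdges {s(x, y)}) S T Z)
    (hy : ¬ Near (G.deleteEdges {s(x, y)}) S Z y)
    (hZ' : Seps (G.deleteEdges {s(x, y)}) S (insert x Z) Z') : Seps G S T Z' := by
  intro s hs t ht p
  have hit : ∃ z ∈ p.support, z ∈ Z ∨ z = x := by
    by_contra hno
    push Not at hno
    rcases crossing hZ hs ht p (fun z hz => (hno z hz).1) with ⟨-, h⟩ | ⟨h, -⟩
    · obtain ⟨z, hz, he⟩ : ∃ z ∈ p.support, z = x := by
        by_contra hx
        push Not at hx
        have : ∃ q : (G.deleteEdges {s(x, y)}).Walk s t, q.support ⊆ p.support := by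
          refine ⟨p.toDeleteEdges {s(x, y)} fun e he h => ?_, ?_⟩
          · rw [Set.mem_singleton_iff] at h
            exact hx x (p.fst_mem_support_of_mem_edges (h ▸ he)) rfl
          · simp [Walk.toDeleteEdges]
        obtain ⟨q, hq⟩ := this
        obtain ⟨z, hz, hzq⟩ := hZ s hs t ht q
        exact (hno z (hq hzq)).1 hz
      exact (hno z hz).2 he
    · exact hy h
  obtain ⟨x', q, hx', hq, hsub, honly⟩ := first_hit G (fun z => z ∈ Z ∨ z = x) p hit
  have hstart : s = x' ∨ Near (G.deleteEdges {s(x, y)}) S Z s := by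
    by_cases hsZ : s ∈ Z
    · exact Or.inl (honly s q.start_mem_support (Or.inl hsZ))
    · exact Or.inr ⟨s, hs, Walk.nil, fun z hz => by
        simp only [Walk.support_nil, List.mem_singleton] at hz
        exact hz ▸ hsZ⟩
  obtain ⟨r, hr⟩ := stay hy q hstart hq honly
  obtain ⟨z, hz, hzr⟩ := hZ' s hs x' (by rcases hx' with h | rfl <;> simp [*]) r
  exact ⟨z, hz, hsub (hr hzr)⟩

/-- A family of pairwise disjoint walks from `S` to `T`. -/
def Linked (G : SimpleGraph V) (S T : Finset V) (k : ℕ) : Prop :=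
  ∃ (s t : Fin k → V) (p : ∀ i, G.Walk (s i) (t i)),
    (∀ i, s i ∈ S ∧ t i ∈ T) ∧ ∀ i j z, z ∈ (p i).support → z ∈ (p j).support → i = j

/-- Disjoint walks to a set can be cut to paths meeting it only at their ends. -/
theorem linked_trim {G : SimpleGraph V} {S T : Finset V} {k : ℕ} (h : Linked G S T k) :
    ∃ (s t : Fin k → V) (p : ∀ i, G.Walk (s i) (t i)),
      (∀ i, s i ∈ S ∧ t i ∈ T) ∧ (∀ i j z, z ∈ (p i).support → z ∈ (p j).support → i = j) ∧
        (∀ i, (p i).IsPath) ∧ ∀ i, ∀ w ∈ (p i).support, w ∈ T → w = t i := by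
  obtain ⟨s, t, p, hst, hdis⟩ := h
  have h' := fun i => first_hit G (· ∈ T) (p i) ⟨t i, (p i).end_mem_support, (hst i).2⟩
  choose x q hx hq hsub honly using h'
  exact ⟨s, x, q, fun i => ⟨(hst i).1, hx i⟩,
    fun i j z hi hj => hdis i j z (hsub i hi) (hsub j hj), hq, honly⟩

/-- Menger's theorem. -/
theorem menger [Fintype V] [DecidableEq V] (G : SimpleGraph V) (S T : Finset V) (k : ℕ)
    (h : ∀ Z : Finset V, Seps G S T Z → k ≤ Z.card) : Linked G S T k := by
  classical
  induction hn : G.edgeSet.ncard using Nat.strong_induction_on generalizing G S T with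
  | _ n ih =>
  subst hn
  by_cases hE : ∃ a b, G.Adj a b
  swap
  · have hE' : ∀ a b, ¬ G.Adj a b := fun a b hab => hE ⟨a, b, hab⟩
    have hsep : Seps G S T (S ∩ T) := by
      intro s hs t ht p
      cases p with
      | nil => exact ⟨s, Finset.mem_inter.mpr ⟨hs, ht⟩, by simp⟩
      | cons h _ => exact absurd h (hE' _ _)
    obtain ⟨R, hR, hRk⟩ := Finset.exists_subset_card_eq (h _ hsep)
    let e := (R.equivFinOfCardEq hRk).symm
    refine ⟨fun i => (e i).1, fun i => (e i).1, fun i => Walk.nil,
      fun i => Finset.mem_inter.mp (hR (e i).2), fun i j z hi hj => ?_⟩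
    simp only [Walk.support_nil, List.mem_singleton] at hi hj
    exact e.injective (Subtype.ext (hi.symm.trans hj))
  obtain ⟨a, b, hab⟩ := hE
  set G' := G.deleteEdges {s(a, b)} with hG'
  have hlt : G'.edgeSet.ncard < G.edgeSet.ncard := by
    refine Set.ncard_lt_ncard ⟨edgeSet_mono (deleteEdges_le _), fun hsub => ?_⟩ (Set.toFinite _)
    have := hsub ((mem_edgeSet G).mpr hab)
    simp [hG'] at this
  by_cases hall : ∀ Z : Finset V, Seps G' S T Z → k ≤ Z.card
  · obtain ⟨s, t, p, hst, hdis⟩ := ih _ hlt G' S T hall rfl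
    refine ⟨s, t, fun i => (p i).mapLe (deleteEdges_le _), hst, fun i j z hi hj => ?_⟩
    simp only [Walk.support_mapLe_eq_support] at hi hj
    exact hdis i j z hi hj
  push Not at hall
  obtain ⟨Z, hZ, hZk⟩ := hall
  have hnot : ¬ Seps G S T Z := fun h' => absurd (h Z h') (not_le.mpr hZk)
  simp only [Seps, not_forall, not_exists, not_and] at hnot
  obtain ⟨s₀, hs₀, t₀, ht₀, p₀, hp₀⟩ := hnot
  have hp₀' : ∀ z ∈ p₀.support, z ∉ Z := fun z hz hzZ => hp₀ z hzZ hz
  obtain ⟨x, y, hxy, hadj, hNx, hNy⟩ : ∃ x y, G' = G.deleteEdges {s(x, y)} ∧ G.Adj x y ∧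
      Near G' S Z x ∧ ¬ Near G' S Z y := by
    rcases crossing hZ hs₀ ht₀ p₀ hp₀' with ⟨h1, h2⟩ | ⟨h1, h2⟩
    · exact ⟨a, b, rfl, hab, h1, h2⟩
    · exact ⟨b, a, by rw [hG', Sym2.eq_swap], hab.symm, h1, h2⟩
  have hRx : ¬ Near G' T Z x := by
    rintro ⟨t, ht, q, hq⟩
    obtain ⟨s, hs, r, hr⟩ := hNx
    obtain ⟨z, hz, hzp⟩ := hZ s hs t ht (r.append q.reverse)
    rcases (Walk.mem_support_append_iff _ _).mp hzp with h' | h'
    · exact hr z h' hz
    · exact hq z (by simpa using h') hz
  rw [hxy] at hZ hNx hNy hRx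
  rw [hxy] at hlt
  set H := G.deleteEdges {s(x, y)} with hH
  have hH' : G.deleteEdges {s(y, x)} = H := by rw [hH, Sym2.eq_swap]
  obtain ⟨s, u, p, hsu, hpd, hpp, hpo⟩ :=
    linked_trim (ih _ hlt H S (insert x Z) (fun Z' h' => h Z' (seps_side hZ hNy h')) rfl)
  obtain ⟨t, w, q, htw, hqd, hqp, hqo⟩ :=
    linked_trim (ih _ hlt H T (insert y Z) (fun Z' h' => h Z' (seps_symm
      (seps_side (x := y) (y := x) (by rw [hH']; exact seps_symm hZ) (by rw [hH']; exact hRx)
        (by rw [hH']; exact h')))) rfl)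
  -- a vertex on both sides lies in `Z` and is the end of both paths
  have hmeet : ∀ i j z, z ∈ (p i).support → z ∈ (q j).support → z ∈ Z ∧ z = u i ∧ z = w j := by
    intro i j z hi hj
    by_contra hcon
    have hzZ : z ∉ Z := fun hz => hcon ⟨hz, hpo i z hi (Finset.mem_insert_of_mem hz),
      hqo j z hj (Finset.mem_insert_of_mem hz)⟩
    obtain ⟨c, hc, hcw⟩ := hZ (s i) (hsu i).1 (t j) (htw j).1
      (((p i).takeUntil z hi).append ((q j).takeUntil z hj).reverse)
    rcases (Walk.mem_support_append_iff _ _).mp hcw with h' | h'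
    · have e := hpo i c (Walk.support_takeUntil_subset_support _ hi h')
        (Finset.mem_insert_of_mem hc)
      subst e
      exact hzZ ((Walk.endpoint_notMem_support_takeUntil (hpp i) hi
        (fun h => hzZ (h ▸ hc))) h').elim
    · rw [Walk.support_reverse, List.mem_reverse] at h'
      have e := hqo j c (Walk.support_takeUntil_subset_support _ hj h')
        (Finset.mem_insert_of_mem hc)
      subst e
      exact hzZ ((Walk.endpoint_notMem_support_takeUntil (hqp j) hj
        (fun h => hzZ (h ▸ hc))) h').elim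
  have hu : Function.Injective u := fun i j e =>
    hpd i j (u i) (p i).end_mem_support (by rw [e]; exact (p j).end_mem_support)
  have hw : Function.Injective w := fun i j e =>
    hqd i j (w i) (q i).end_mem_support (by rw [e]; exact (q j).end_mem_support)
  have hsurj : ∀ v ∈ insert y Z, ∃ j, w j = v := by
    intro v hv
    by_contra hno
    push Not at hno
    have : Finset.univ.image w ⊆ (insert y Z).erase v := by
      intro c hc
      obtain ⟨j, -, rfl⟩ := Finset.mem_image.mp hc
      exact Finset.mem_erase.mpr ⟨hno j, (htw j).2⟩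
    have := Finset.card_le_card this
    rw [Finset.card_image_of_injective _ hw, Finset.card_erase_of_mem hv] at this
    have h2 := Finset.card_insert_le y Z
    simp at this
    omega
  have hjoin : ∀ i, ∃ (j : Fin k) (r : G.Walk (s i) (t j)),
      (∀ z ∈ r.support, z ∈ (p i).support ∨ z ∈ (q j).support) ∧
        ((u i ∈ Z ∧ w j = u i) ∨ (u i = x ∧ w j = y)) := by
    intro i
    have hle : H ≤ G := deleteEdges_le _
    by_cases hiZ : u i ∈ Z
    · obtain ⟨j, hj⟩ := hsurj (u i) (Finset.mem_insert_of_mem hiZ)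
      refine ⟨j, ((p i).mapLe hle).append (((q j).mapLe hle).reverse.copy hj rfl), ?_,
        Or.inl ⟨hiZ, hj⟩⟩
      intro z hz
      rcases (Walk.mem_support_append_iff _ _).mp hz with h' | h'
      · left; simpa using h'
      · right; simpa using h'
    · have hix : u i = x := (Finset.mem_insert.mp (hsu i).2).resolve_right hiZ
      obtain ⟨j, hj⟩ := hsurj y (Finset.mem_insert_self _ _)
      refine ⟨j, ((p i).mapLe hle).append
        (Walk.cons (show G.Adj (u i) (w j) by rw [hix, hj]; exact hadj)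
          ((q j).mapLe hle).reverse), ?_, Or.inr ⟨hix, hj⟩⟩
      intro z hz
      rcases (Walk.mem_support_append_iff _ _).mp hz with h' | h'
      · left; simpa using h'
      · rw [Walk.support_cons] at h'
        rcases List.mem_cons.mp h' with rfl | h'
        · left; exact (p i).end_mem_support
        · right; simpa using h'
  choose j r hr hcase using hjoin
  have hyZ : y ∉ Z := by
    intro hy'
    have : insert y Z = Z := Finset.insert_eq_of_mem hy'
    have h1 : (Finset.univ.image w) ⊆ Z := by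
      intro c hc
      obtain ⟨i, -, rfl⟩ := Finset.mem_image.mp hc
      exact this ▸ (htw i).2
    have := Finset.card_le_card h1
    rw [Finset.card_image_of_injective _ hw] at this
    simp at this
    omega
  have hjinj : Function.Injective j := by
    intro i i' e
    rcases hcase i with ⟨h1, h2⟩ | ⟨h1, h2⟩ <;> rcases hcase i' with ⟨h3, h4⟩ | ⟨h3, h4⟩
    · exact hu (by rw [← h2, ← h4, e])
    · exact absurd (show y ∈ Z by rw [← h4, ← e, h2]; exact h1) hyZ
    · exact absurd (show y ∈ Z by rw [← h2, e, h4]; exact h3) hyZ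
    · exact hu (h1.trans h3.symm)
  refine ⟨s, fun i => t (j i), r, fun i => ⟨(hsu i).1, (htw _).1⟩, fun i i' z hi hi' => ?_⟩
  have key : ∀ i i' z, z ∈ (p i).support → z ∈ (q (j i')).support → i = i' := by
    intro i i' z h1 h2
    obtain ⟨hzZ, e1, e2⟩ := hmeet i (j i') z h1 h2
    rcases hcase i' with ⟨-, h4⟩ | ⟨-, h4⟩
    · exact hu (e1.symm.trans (e2.trans h4))
    · exact absurd (by rw [← h4, ← e2]; exact hzZ) hyZ
  rcases hr i z hi with h1 | h1 <;> rcases hr i' z hi' with h2 | h2
  · exact hpd i i' z h1 h2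
  · exact key i i' z h1 h2
  · exact (key i' i z h2 h1).symm
  · exact hjinj (hqd _ _ z h1 h2)

end Vale.Agent.P235.Ladder
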