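import Vale.Agent.P235.Ladder.Step

/-!
Ladders with many rungs give ladder minors.
-/

open SimpleGraph

namespace Vale.Agent.P235.Ladder

variable {V : Type} {G : SimpleGraph V}

/-- `H` is a minor of `G`: disjoint connected branch sets, adjacent along every edge of `H`. -/
def HasMinor {W : Type} (H : SimpleGraph W) (G : SimpleGraph V) : Prop :=
  ∃ B : W → Set V, (∀ w, (G.induce (B w)).Connected) ∧
    (∀ w w', w ≠ w' → Disjoint (B w) (B w')) ∧
    ∀ w w', H.Adj w w' → ∃ x ∈ B w, ∃ y ∈ B w', G.Adj x y

/-- Erdős–Szekeres. -/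
theorem monotone_pick (n k : ℕ) (hn : k * k ≤ n) (f h : Fin n → ℕ) (hf : Function.Injective f)
    (hh : Function.Injective h) :
    ∃ σ : Fin k → Fin n, StrictMono (f ∘ σ) ∧ (StrictMono (h ∘ σ) ∨ StrictAnti (h ∘ σ)) := by
  classical
  rcases Nat.eq_zero_or_pos k with rfl | hk
  · exact ⟨Fin.elim0, fun a => a.elim0, Or.inl fun a => a.elim0⟩
  let Up : Finset (Fin n) → Prop := fun S => ∀ a ∈ S, ∀ b ∈ S, f a < f b → h a < h b
  let Dn : Finset (Fin n) → Prop := fun S => ∀ a ∈ S, ∀ b ∈ S, f a < f b → h b < h a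
  by_cases hbig : ∃ S : Finset (Fin n), k ≤ S.card ∧ (Up S ∨ Dn S)
  · obtain ⟨S, hS, hmon⟩ := hbig
    obtain ⟨S', hS', hc⟩ := Finset.exists_subset_card_eq hS
    have hc' : (S'.image f).card = k := by rw [Finset.card_image_of_injective _ hf]; exact hc
    have hpre : ∀ j, ∃ a ∈ S', f a = (S'.image f).orderEmbOfFin hc' j := fun j =>
      Finset.mem_image.mp (Finset.orderEmbOfFin_mem _ hc' j)
    choose σ hσ hσf using hpre
    have hf' : StrictMono (f ∘ σ) := fun a b hab => by
      simp only [Function.comp_apply, hσf]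
      exact OrderEmbedding.strictMono _ hab
    refine ⟨σ, hf', ?_⟩
    rcases hmon with hm | hm
    · exact Or.inl fun a b hab => hm _ (hS' (hσ a)) _ (hS' (hσ b)) (hf' hab)
    · exact Or.inr fun a b hab => hm _ (hS' (hσ a)) _ (hS' (hσ b)) (hf' hab)
  push Not at hbig
  exfalso
  -- longest chains ending at each index
  let fam : (Finset (Fin n) → Prop) → Fin n → Finset (Finset (Fin n)) := fun P i =>
    Finset.univ.filter fun S => i ∈ S ∧ (∀ a ∈ S, f a ≤ f i) ∧ P S
  let val : (Finset (Fin n) → Prop) → Fin n → ℕ := fun P i => (fam P i).sup Finset.card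
  have hb : ∀ P, (P = Up ∨ P = Dn) → ∀ i, 1 ≤ val P i ∧ val P i < k := by
    intro P hP i
    have h1 : ({i} : Finset (Fin n)) ∈ fam P i := by
      refine Finset.mem_filter.mpr ⟨Finset.mem_univ _, Finset.mem_singleton_self i,
        fun a ha => by rw [Finset.mem_singleton.mp ha], ?_⟩
      rcases hP with rfl | rfl <;>
      · intro a ha b hb hab
        rw [Finset.mem_singleton.mp ha, Finset.mem_singleton.mp hb] at hab
        exact absurd hab (lt_irrefl _)
    refine ⟨le_trans (by simp) (Finset.le_sup (f := Finset.card) h1), ?_⟩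
    refine (Finset.sup_lt_iff hk).mpr fun S hS => ?_
    obtain ⟨-, -, -, hS⟩ := Finset.mem_filter.mp hS
    by_contra hcon
    obtain ⟨u1, u2⟩ := hbig S (by omega)
    rcases hP with rfl | rfl
    · exact u1 hS
    · exact u2 hS
  have hstep : ∀ P, (P = Up ∨ P = Dn) → ∀ i j, f i < f j →
      (P = Up → h i < h j) → (P = Dn → h j < h i) → val P i < val P j := by
    intro P hP i j hij hu hd
    obtain ⟨S, hS, hSv⟩ := (fam P i).exists_mem_eq_sup
      (Finset.card_pos.mp (Nat.pos_of_ne_zero fun h0 => by
        have := (hb P hP i).1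
        simp only [val, Finset.card_eq_zero.mp h0, Finset.sup_empty] at this
        exact absurd this (by simp))) Finset.card
    obtain ⟨-, hiS, hSle, hSP⟩ := Finset.mem_filter.mp hS
    have hjS : j ∉ S := fun hj => absurd (hSle j hj) (not_le.mpr hij)
    have hmem : insert j S ∈ fam P j := by
      refine Finset.mem_filter.mpr ⟨Finset.mem_univ _, Finset.mem_insert_self _ _, ?_, ?_⟩
      · intro a ha
        rcases Finset.mem_insert.mp ha with rfl | ha
        · exact le_rfl
        · exact ((hSle a ha).trans hij.le)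
      · rcases hP with rfl | rfl
        · intro a ha b hb hab
          rcases Finset.mem_insert.mp ha with rfl | haS <;>
            rcases Finset.mem_insert.mp hb with rfl | hbS
          · exact absurd hab (lt_irrefl _)
          · exact absurd ((hab.trans_le (hSle b hbS)).trans hij) (lt_irrefl _)
          · rcases (hSle a haS).eq_or_lt with e | e
            · rw [hf e]; exact hu rfl
            · exact (hSP a haS i hiS e).trans (hu rfl)
          · exact hSP a haS b hbS hab
        · intro a ha b hb hab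
          rcases Finset.mem_insert.mp ha with rfl | haS <;>
            rcases Finset.mem_insert.mp hb with rfl | hbS
          · exact absurd hab (lt_irrefl _)
          · exact absurd ((hab.trans_le (hSle b hbS)).trans hij) (lt_irrefl _)
          · rcases (hSle a haS).eq_or_lt with e | e
            · rw [hf e]; exact hd rfl
            · exact (hd rfl).trans (hSP a haS i hiS e)
          · exact hSP a haS b hbS hab
    have := Finset.le_sup (f := Finset.card) hmem
    rw [Finset.card_insert_of_notMem hjS] at this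
    show (fam P i).sup Finset.card < (fam P j).sup Finset.card
    omega
  have hinj : ∀ i j, f i < f j → (val Up i, val Dn i) ≠ (val Up j, val Dn j) := by
    intro i j hij e
    rw [Prod.mk.injEq] at e
    rcases lt_trichotomy (h i) (h j) with hl | hl | hl
    · refine absurd e.1 (hstep Up (Or.inl rfl) i j hij (fun _ => hl) fun e' => ?_).ne
      have := congrFun e' {i, j}
      simp only [Up, Dn, eq_iff_iff] at this
      have h' := (this.mp (by
        intro a ha b hb hab
        simp only [Finset.mem_insert, Finset.mem_singleton] at ha hb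
        rcases ha with rfl | rfl <;> rcases hb with rfl | rfl
        all_goals omega)) i (by simp) j (by simp) hij
      omega
    · exact absurd (hh hl) (fun e' => hij.ne (by rw [e']))
    · refine absurd e.2 (hstep Dn (Or.inr rfl) i j hij (fun e' => ?_) fun _ => hl).ne
      have := congrFun e' {i, j}
      simp only [Up, Dn, eq_iff_iff] at this
      have h' := (this.mp (by
        intro a ha b hb hab
        simp only [Finset.mem_insert, Finset.mem_singleton] at ha hb
        rcases ha with rfl | rfl <;> rcases hb with rfl | rfl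
        all_goals omega)) i (by simp) j (by simp) hij
      omega
  have hcard := Finset.card_le_card_of_injOn (s := (Finset.univ : Finset (Fin n)))
    (t := Finset.Ico 1 k ×ˢ Finset.Ico 1 k) (fun i => (val Up i, val Dn i))
    (fun i _ => Finset.mem_coe.mpr (Finset.mem_product.mpr
      ⟨Finset.mem_Ico.mpr (hb Up (Or.inl rfl) i), Finset.mem_Ico.mpr (hb Dn (Or.inr rfl) i)⟩))
    (fun i _ j _ e => by
      rcases lt_trichotomy (f i) (f j) with hl | hl | hl
      · exact absurd e (hinj i j hl)
      · exact hf hl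
      · exact absurd e.symm (hinj j i hl))
  rw [Finset.card_univ, Fintype.card_fin, Finset.card_product, Nat.card_Ico] at hcard
  have : (k - 1) * (k - 1) < k * k := Nat.mul_self_lt_mul_self (by omega)
  omega

/-- The entries of `l` at positions in `[lo, hi)`. -/
def seg (l : List V) (lo hi : ℕ) : Set V := {x | ∃ t, lo ≤ t ∧ t < hi ∧ l[t]? = some x}

theorem seg_connected {l : List V} (hl : l.IsChain G.Adj) (lo d : ℕ) (h : lo + d + 1 ≤ l.length) :
    (G.induce (seg l lo (lo + d + 1))).Connected := by
  induction d with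
  | zero =>
    have he : seg l lo (lo + 0 + 1) = {l[lo]'(by omega)} := by
      ext x
      simp only [seg, Set.mem_ofPred_eq, Set.mem_singleton_iff]
      constructor
      · rintro ⟨t, h1, h2, h3⟩
        obtain rfl : t = lo := by omega
        rw [List.getElem?_eq_getElem (by omega)] at h3
        exact (Option.some.inj h3).symm
      · rintro rfl
        exact ⟨lo, le_rfl, by omega, List.getElem?_eq_getElem _⟩
    rw [he]
    exact @SimpleGraph.Connected.mk _ _ (fun a b => by
      rw [Subtype.ext (a.2.trans b.2.symm)]) ⟨⟨_, rfl⟩⟩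
  | succ d ih =>
    have he : seg l lo (lo + (d + 1) + 1) = seg l lo (lo + d + 1) ∪ {l[lo + d + 1]'(by omega)} := by
      ext x
      simp only [seg, Set.mem_ofPred_eq, Set.mem_union, Set.mem_singleton_iff]
      constructor
      · rintro ⟨t, h1, h2, h3⟩
        by_cases ht : t < lo + d + 1
        · exact Or.inl ⟨t, h1, ht, h3⟩
        · obtain rfl : t = lo + d + 1 := by omega
          rw [List.getElem?_eq_getElem (by omega)] at h3
          exact Or.inr (Option.some.inj h3).symm
      · rintro (⟨t, h1, h2, h3⟩ | rfl)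
        · exact ⟨t, h1, by omega, h3⟩
        · exact ⟨lo + d + 1, by omega, by omega, List.getElem?_eq_getElem _⟩
    rw [he]
    refine connected_induce_union (v := l[lo + d]'(by omega)) (w := l[lo + d + 1]'(by omega))
      (ih (by omega)).preconnected ?_ ⟨lo + d, by omega, by omega, List.getElem?_eq_getElem _⟩ rfl
      (List.isChain_iff_getElem.mp hl (lo + d) (by omega))
    intro a b
    rw [Subtype.ext (a.2.trans b.2.symm)]

/-- End of the `j`-th segment. -/
def nx {k : ℕ} (α : Fin k → ℕ) (j : Fin k) : ℕ :=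
  if h : (j : ℕ) + 1 < k then α ⟨j + 1, h⟩ else α j + 1

theorem segs {k : ℕ} {l : List V} (hn : l.Nodup) (hc : l.IsChain G.Adj) (α : Fin k → ℕ)
    (hα : StrictMono α) (hlen : ∀ j, α j < l.length) :
    (∀ j, (G.induce (seg l (α j) (nx α j))).Connected) ∧
    (∀ j, l[α j]'(hlen j) ∈ seg l (α j) (nx α j)) ∧
    (∀ i j, i ≠ j → Disjoint (seg l (α i) (nx α i)) (seg l (α j) (nx α j))) ∧
    (∀ i j : Fin k, (i : ℕ) + 1 = j →
      ∃ x ∈ seg l (α i) (nx α i), ∃ y ∈ seg l (α j) (nx α j), G.Adj x y) := by
  have hlt : ∀ j, α j < nx α j ∧ nx α j ≤ l.length := by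
    intro j
    unfold nx
    split
    · rename_i h
      exact ⟨hα (by simp [Fin.lt_def]), (hlen _).le⟩
    · exact ⟨Nat.lt_succ_self _, hlen j⟩
  have hle : ∀ i j, i < j → nx α i ≤ α j := by
    intro i j hij
    have h : (i : ℕ) + 1 < k := by omega
    rw [nx, dif_pos h]
    exact hα.monotone (by simp [Fin.le_def]; omega)
  have hmem : ∀ j, l[α j]'(hlen j) ∈ seg l (α j) (nx α j) := fun j =>
    ⟨α j, le_rfl, (hlt j).1, List.getElem?_eq_getElem _⟩
  refine ⟨fun j => ?_, hmem, ?_, ?_⟩
  · obtain ⟨h1, h2⟩ := hlt j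
    obtain ⟨d, hd⟩ : ∃ d, nx α j = α j + d + 1 := ⟨nx α j - α j - 1, by omega⟩
    rw [hd]
    exact seg_connected hc _ _ (by omega)
  · intro i j hij
    rw [Set.disjoint_left]
    rintro x ⟨t, h1, h2, h3⟩ ⟨t', h1', h2', h3'⟩
    obtain ⟨ht, e⟩ := List.getElem?_eq_some_iff.mp h3
    obtain ⟨ht', e'⟩ := List.getElem?_eq_some_iff.mp h3'
    obtain rfl : t = t' := (hn.getElem_inj_iff).mp (e.trans e'.symm)
    rcases lt_or_gt_of_ne hij with h | h
    · have := hle i j h; omega
    · have := hle j i h; omega
  · intro i j hij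
    have h : (i : ℕ) + 1 < k := by omega
    have hj : (⟨i + 1, h⟩ : Fin k) = j := Fin.ext hij
    have e : nx α i = α j := by rw [nx, dif_pos h, hj]
    have hi := (hlt i).1
    have hj' := hlen j
    refine ⟨l[α j - 1]'(by omega), ⟨α j - 1, by omega, by omega, List.getElem?_eq_getElem _⟩,
      l[α j], hmem j, ?_⟩
    have := List.isChain_iff_getElem.mp hc (α j - 1) (by omega)
    simpa [show α j - 1 + 1 = α j by omega] using this

/-- Two rails with rungs in the same order give a ladder minor. -/
theorem build {k : ℕ} {A B : List V} (hA : A.Nodup) (hB : B.Nodup) (hAc : A.IsChain G.Adj)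
    (hBc : B.IsChain G.Adj) (hAB : A.Disjoint B) (α β : Fin k → ℕ) (hα : StrictMono α)
    (hβ : StrictMono β) (hαl : ∀ j, α j < A.length) (hβl : ∀ j, β j < B.length)
    (q : ∀ j, G.Walk (B[β j]'(hβl j)) (A[α j]'(hαl j))) (hqp : ∀ j, (q j).IsPath)
    (hqA : ∀ j, ∀ z ∈ (q j).support, z ∈ A → z = A[α j]'(hαl j))
    (hqB : ∀ j, ∀ z ∈ (q j).support, z ∈ B → z = B[β j]'(hβl j))
    (hqd : ∀ i j z, z ∈ (q i).support → z ∈ (q j).support → i = j) :
    HasMinor ((pathGraph 2).boxProd (pathGraph k)) G := by
  obtain ⟨hAconn, hAmem, hAdis, hAadj⟩ := segs hA hAc α hα hαl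
  obtain ⟨hBconn, hBmem, hBdis, hBadj⟩ := segs hB hBc β hβ hβl
  have hne : ∀ j, B[β j]'(hβl j) ≠ A[α j]'(hαl j) := fun j e =>
    hAB (List.getElem_mem (hαl j)) (e ▸ List.getElem_mem (hβl j))
  have hnil : ∀ j, ¬ (q j).Nil := fun j => Walk.not_nil_of_ne (hne j)
  let T : Fin k → Set V := fun j => {x | x ∈ (q j).tail.support}
  have hT : ∀ j x, x ∈ T j → x ∈ (q j).support ∧ x ∉ B := by
    intro j x hx
    have hx' : x ∈ (q j).support.tail := by
      rw [← Walk.support_tail_of_not_nil _ (hnil j)]; exact hx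
    refine ⟨List.mem_of_mem_tail hx', fun hxB => ?_⟩
    have e := hqB j x (List.mem_of_mem_tail hx') hxB
    have hn := (hqp j).support_nodup
    rw [← Walk.cons_tail_support, List.nodup_cons] at hn
    exact hn.1 (e ▸ hx')
  have hTA : ∀ j x, x ∈ T j → x ∈ A → x = A[α j]'(hαl j) := fun j x hx hxA =>
    hqA j x (hT j x hx).1 hxA
  have hsegA : ∀ j x, x ∈ seg A (α j) (nx α j) → x ∈ A := by
    rintro j x ⟨t, -, -, ht⟩
    exact List.mem_of_getElem? ht
  have hsegB : ∀ j x, x ∈ seg B (β j) (nx β j) → x ∈ B := by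
    rintro j x ⟨t, -, -, ht⟩
    exact List.mem_of_getElem? ht
  let Br : Fin 2 × Fin k → Set V := fun p =>
    if p.1 = 0 then seg A (α p.2) (nx α p.2) ∪ T p.2 else seg B (β p.2) (nx β p.2)
  have hzero : ∀ j, Br (0, j) = seg A (α j) (nx α j) ∪ T j := fun j => if_pos rfl
  have hone : ∀ j, Br (1, j) = seg B (β j) (nx β j) := fun j => if_neg one_ne_zero
  have h01 : ∀ i j, Disjoint (seg A (α i) (nx α i) ∪ T i) (seg B (β j) (nx β j)) := by
    intro i j
    rw [Set.disjoint_left]
    rintro x (hx | hx) hx'
    · exact hAB (hsegA i x hx) (hsegB j x hx')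
    · exact (hT i x hx).2 (hsegB j x hx')
  have hAT : ∀ i j x, i ≠ j → x ∈ T i → x ∉ seg A (α j) (nx α j) := by
    intro i j x hij hx hx'
    have e := hTA i x hx (hsegA j x hx')
    exact Set.disjoint_left.mp (hAdis i j hij) (e ▸ hAmem i) hx'
  refine ⟨Br, ?_, ?_, ?_⟩
  · rintro ⟨a, j⟩
    fin_cases a
    · show (G.induce (Br (0, j))).Connected
      rw [hzero]
      exact induce_union_connected (hAconn j).preconnected
        ((q j).tail.connected_induce_support).preconnected
        ⟨_, hAmem j, (q j).tail.end_mem_support⟩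
    · show (G.induce (Br (1, j))).Connected
      rw [hone]
      exact hBconn j
  · rintro ⟨a, i⟩ ⟨b, j⟩ h
    fin_cases a <;> fin_cases b
    · have hij : i ≠ j := fun e => h (by rw [e])
      show Disjoint (Br (0, i)) (Br (0, j))
      rw [hzero, hzero, Set.disjoint_left]
      rintro x (hx | hx) (hx' | hx')
      · exact Set.disjoint_left.mp (hAdis i j hij) hx hx'
      · exact hAT j i x hij.symm hx' hx
      · exact hAT i j x hij hx hx'
      · exact hij (hqd i j x (hT i x hx).1 (hT j x hx').1)
    · show Disjoint (Br (0, i)) (Br (1, j))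
      rw [hzero, hone]; exact h01 i j
    · show Disjoint (Br (1, i)) (Br (0, j))
      rw [hzero, hone]; exact (h01 j i).symm
    · have hij : i ≠ j := fun e => h (by rw [e])
      show Disjoint (Br (1, i)) (Br (1, j))
      rw [hone, hone]; exact hBdis i j hij
  · rintro ⟨a, i⟩ ⟨b, j⟩ h
    have hrail : ∀ i j : Fin k, (i : ℕ) + 1 = j → ∀ a : Fin 2,
        ∃ x ∈ Br (a, i), ∃ y ∈ Br (a, j), G.Adj x y := by
      intro i j hij a
      fin_cases a
      · obtain ⟨x, hx, y, hy, hxy⟩ := hAadj i j hij
        exact ⟨x, (hzero i).symm ▸ Or.inl hx, y, (hzero j).symm ▸ Or.inl hy, hxy⟩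
      · obtain ⟨x, hx, y, hy, hxy⟩ := hBadj i j hij
        exact ⟨x, (hone i).symm ▸ hx, y, (hone j).symm ▸ hy, hxy⟩
    have hrung : ∀ j, ∃ x ∈ Br (0, j), ∃ y ∈ Br (1, j), G.Adj x y := fun j =>
      ⟨(q j).snd, (hzero j).symm ▸ Or.inr (q j).tail.start_mem_support, _,
        (hone j).symm ▸ hBmem j, ((q j).adj_snd (hnil j)).symm⟩
    rcases boxProd_adj.mp h with ⟨h1, rfl⟩ | ⟨h1, rfl⟩
    · simp only [pathGraph_adj] at h1
      fin_cases a <;> fin_cases b
      · simp at h1
      · exact hrung i
      · obtain ⟨x, hx, y, hy, hxy⟩ := hrung i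
        exact ⟨y, hy, x, hx, hxy.symm⟩
      · simp at h1
    · rcases pathGraph_adj.mp h1 with e | e
      · exact hrail i j e a
      · obtain ⟨x, hx, y, hy, hxy⟩ := hrail j i e a
        exact ⟨y, hy, x, hx, hxy.symm⟩

/-- Two disjoint paths with `k * k` disjoint rungs contain the ladder with `k` rungs as a minor. -/
theorem noLad_of_minor [DecidableEq V] {k : ℕ}
    (h : ¬ HasMinor ((pathGraph 2).boxProd (pathGraph k)) G) : NoLad G (k * k) := by
  classical
  rintro W A B ⟨⟨hA, hB, hAc, hBc⟩, -, -, hAB, R, hR, hRd⟩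
  apply h
  have hclean : ∀ i, ∃ (b a : V) (q : G.Walk b a), b ∈ B ∧ a ∈ A ∧ q.IsPath ∧
      (∀ z ∈ q.support, z ∈ R i) ∧ (∀ z ∈ q.support, z ∈ A → z = a) ∧
      ∀ z ∈ q.support, z ∈ B → z = b := by
    intro i
    obtain ⟨-, hconn, ⟨a, haR, haA⟩, ⟨b, hbR, hbB⟩⟩ := hR i
    obtain ⟨p⟩ := hconn a haR b hbR
    have hpR : ∀ z ∈ (p.mapLe (res_le _ _)).support, z ∈ R i := fun z hz => by
      rw [Walk.support_mapLe_eq_support] at hz
      exact res_support p haR z hz
    obtain ⟨b', p1, hb', -, hs1, ho1⟩ := first_hit G (· ∈ B) (p.mapLe (res_le _ _))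
      ⟨b, Walk.end_mem_support _, hbB⟩
    obtain ⟨a', p2, ha', hp2, hs2, ho2⟩ := first_hit G (· ∈ A) p1.reverse
      ⟨a, Walk.end_mem_support _, haA⟩
    refine ⟨b', a', p2, hb', ha', hp2, fun z hz => hpR z (hs1 (by simpa using hs2 hz)), ho2,
      fun z hz hzB => ho1 z (by simpa using hs2 hz) hzB⟩
  choose b a q hbB haA hqp hqR hqA hqB using hclean
  have hd : ∀ i j z, z ∈ (q i).support → z ∈ (q j).support → i = j := fun i j z h1 h2 => by
    by_contra hne
    exact Finset.disjoint_left.mp (hRd i j hne) (hqR i z h1) (hqR j z h2)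
  let f : Fin (k * k) → ℕ := fun i => A.idxOf (a i)
  let g : Fin (k * k) → ℕ := fun i => B.idxOf (b i)
  have hfl : ∀ i, f i < A.length := fun i => List.idxOf_lt_length_of_mem (haA i)
  have hgl : ∀ i, g i < B.length := fun i => List.idxOf_lt_length_of_mem (hbB i)
  have hfa : ∀ i, A[f i]'(hfl i) = a i := fun i => List.getElem_idxOf (hfl i)
  have hgb : ∀ i, B[g i]'(hgl i) = b i := fun i => List.getElem_idxOf (hgl i)
  have hfinj : Function.Injective f := fun i j e => by
    have : a i = a j := by rw [← hfa i, ← hfa j]; simp only [e]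
    exact hd i j (a i) (q i).end_mem_support (by rw [this]; exact (q j).end_mem_support)
  have hginj : Function.Injective g := fun i j e => by
    have : b i = b j := by rw [← hgb i, ← hgb j]; simp only [e]
    exact hd i j (b i) (q i).start_mem_support (by rw [this]; exact (q j).start_mem_support)
  obtain ⟨σ, hσf, hσg⟩ := monotone_pick (k * k) k le_rfl f g hfinj hginj
  have hσ : Function.Injective σ := fun i j e =>
    hσf.injective (by simp only [Function.comp_apply, e])
  rcases hσg with hσg | hσg
  · refine build hA hB hAc hBc hAB (f ∘ σ) (g ∘ σ) hσf hσg (fun j => hfl _) (fun j => hgl _)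
      (fun j => (q (σ j)).copy (hgb _).symm (hfa _).symm) (fun j => by simpa using hqp (σ j))
      (fun j z hz hzA => ?_) (fun j z hz hzB => ?_) (fun i j z h1 h2 => hσ ?_)
    · simp only [Walk.support_copy] at hz
      exact (hqA _ z hz hzA).trans (hfa _).symm
    · simp only [Walk.support_copy] at hz
      exact (hqB _ z hz hzB).trans (hgb _).symm
    · simp only [Walk.support_copy] at h1 h2
      exact hd _ _ z h1 h2
  · have hl : ∀ j, B.length - 1 - g (σ j) < B.reverse.length := fun j => by
      have := hgl (σ j)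
      simp only [List.length_reverse]
      omega
    have hgb' : ∀ j, B.reverse[B.length - 1 - g (σ j)]'(hl j) = b (σ j) := fun j => by
      have := hgl (σ j)
      rw [List.getElem_reverse]
      simp only [show B.length - 1 - (B.length - 1 - g (σ j)) = g (σ j) by omega]
      exact hgb _
    refine build hA (List.nodup_reverse.mpr hB) hAc
      ((List.isChain_reverse.mpr hBc).imp fun _ _ h => G.adj_symm h)
      (fun z h1 h2 => hAB h1 (List.mem_reverse.mp h2)) (f ∘ σ)
      (fun j => B.length - 1 - g (σ j)) hσf (fun i j hij => ?_) (fun j => hfl _) hl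
      (fun j => (q (σ j)).copy (hgb' j).symm (hfa _).symm) (fun j => by simpa using hqp (σ j))
      (fun j z hz hzA => ?_) (fun j z hz hzB => ?_) (fun i j z h1 h2 => hσ ?_)
    · have := hσg hij
      have := hgl (σ i)
      simp only [Function.comp_apply] at *
      omega
    · simp only [Walk.support_copy] at hz
      exact (hqA _ z hz hzA).trans (hfa _).symm
    · simp only [Walk.support_copy] at hz
      exact (hqB _ z hz (List.mem_reverse.mp hzB)).trans (hgb' j).symm
    · simp only [Walk.support_copy] at h1 h2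
      exact hd _ _ z h1 h2

end Vale.Agent.P235.Ladder
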