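import Vale.Agent.P235.Ladder.Glue

/-!
Graphs without long ladders embed in `ℓ¹` with bounded distortion.
-/

open SimpleGraph

namespace Vale.Agent.P235.Ladder

variable {V : Type} {G : SimpleGraph V}

/-- `W` induces a 2-connected subgraph. -/
def TwoConn [DecidableEq V] (G : SimpleGraph V) (W : Finset V) : Prop :=
  3 ≤ W.card ∧ Conn G W ∧ ∀ z ∈ W, Conn G (W.erase z)

/-- From any two vertices of `W` start two rails with `g` rungs. -/
def Good (G : SimpleGraph V) (W : Finset V) (g : ℕ) : Prop :=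
  ∀ u ∈ W, ∀ v ∈ W, u ≠ v →
    ∃ A B, Lad G W g A B ∧ A.head? = some u ∧ B.head? = some v

theorem conn_comp [Fintype V] (U : Finset V) (u : V)
    (R : Finset V) (hR : ∀ z, z ∈ R ↔ (res G U).Reachable u z) : Conn G R := by
  classical
  intro x hx y hy
  obtain ⟨w⟩ := ((hR x).mp hx).symm.trans ((hR y).mp hy)
  obtain ⟨q, -⟩ := to_res (W := R) (w.mapLe (res_le _ _)) (by
    intro z hz
    rw [Walk.support_mapLe_eq_support] at hz
    exact (hR z).mpr (((hR x).mp hx).trans ⟨w.takeUntil z hz⟩))
  exact ⟨q⟩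

theorem link_two [Fintype V] [DecidableEq V] {W P Q : Finset V} (hW : TwoConn G W)
    (hP : P ⊆ W) (hQ : Q ⊆ W) (hP2 : 2 ≤ P.card) (hQ2 : 2 ≤ Q.card) :
    Linked (res G W) P Q 2 := by
  refine menger _ P Q 2 fun Z hZ => ?_
  by_contra hlt
  have hex : ∀ S : Finset V, 2 ≤ S.card → ∃ s ∈ S, s ∉ Z := fun S hS => by
    by_contra h
    push Not at h
    have := Finset.card_le_card h
    omega
  obtain ⟨s, hs, hsZ⟩ := hex P hP2
  obtain ⟨t, ht, htZ⟩ := hex Q hQ2
  rcases Z.eq_empty_or_nonempty with rfl | ⟨z, hz⟩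
  · obtain ⟨p⟩ := hW.2.1 s (hP hs) t (hQ ht)
    obtain ⟨z, hz, -⟩ := hZ s hs t ht p
    exact absurd hz (Finset.notMem_empty z)
  have honly : ∀ z' ∈ Z, z' = z := fun z' h => Finset.card_le_one.mp (by omega) z' h z hz
  have hcon : Conn G (W.erase z) := by
    by_cases hzW : z ∈ W
    · exact hW.2.2 z hzW
    · rw [Finset.erase_eq_of_notMem hzW]; exact hW.2.1
  have hne : ∀ w, w ∉ Z → w ≠ z := fun w h e => h (e ▸ hz)
  obtain ⟨p⟩ := hcon s (Finset.mem_erase.mpr ⟨hne s hsZ, hP hs⟩) t
    (Finset.mem_erase.mpr ⟨hne t htZ, hQ ht⟩)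
  obtain ⟨z', hz', hzp⟩ := hZ s hs t ht (p.mapLe (res_mono G (Finset.erase_subset _ _)))
  rw [Walk.support_mapLe_eq_support] at hzp
  exact Finset.ne_of_mem_erase
    (res_support p (Finset.mem_erase.mpr ⟨hne s hsZ, hP hs⟩) z' hzp) (honly z' hz')

/-- A good set that does not separate `u` from `v` gives one more rung. -/
theorem extend [Fintype V] [DecidableEq V] {W M : Finset V} {g : ℕ} {u v : V}
    (hW : TwoConn G W) (hu : u ∈ W) (hv : v ∈ W) (huv : u ≠ v) (hM : M ⊆ W) (huM : u ∉ M)
    (hvM : v ∉ M) (hM2 : TwoConn G M) (hg : Good G M g)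
    (hreach : (res G (W \ M)).Reachable u v) :
    ∃ A B, Lad G W (g + 1) A B ∧ A.head? = some u ∧ B.head? = some v := by
  classical
  obtain ⟨s, t, p, hst, hdis, hpath, honly⟩ :=
    linked_trim (link_two hW (P := {u, v}) (Q := M)
      (by intro x hx; simp at hx; rcases hx with rfl | rfl <;> assumption) hM
      (by rw [Finset.card_pair huv]) (le_trans (by norm_num) hM2.1))
  have hsne : s 0 ≠ s 1 := fun e => absurd (hdis 0 1 (s 0) (p 0).start_mem_support
    (by rw [e]; exact (p 1).start_mem_support)) (by decide)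
  obtain ⟨a, b, hab, ha, hb⟩ : ∃ a b : Fin 2, a ≠ b ∧ s a = u ∧ s b = v := by
    have h0 := (hst 0).1
    have h1 := (hst 1).1
    simp only [Finset.mem_insert, Finset.mem_singleton] at h0 h1
    rcases h0 with h0 | h0 <;> rcases h1 with h1 | h1
    · exact absurd (h0.trans h1.symm) hsne
    · exact ⟨0, 1, by decide, h0, h1⟩
    · exact ⟨1, 0, by decide, h1, h0⟩
    · exact absurd (h0.trans h1.symm) hsne
  have htne : t a ≠ t b := fun e => hab (hdis a b (t a) (p a).end_mem_support
    (by rw [e]; exact (p b).end_mem_support))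
  obtain ⟨A0, B0, ⟨⟨hAn, hBn, hAc, hBc⟩, hAM, hBM, hAB, R, hR, hRd⟩, hA0, hB0⟩ :=
    hg (t a) (hst a).2 (t b) (hst b).2 htne
  obtain ⟨A', rfl⟩ : ∃ A', A0 = t a :: A' := by
    cases A0 with
    | nil => simp at hA0
    | cons x l => simp at hA0; exact ⟨l, by rw [hA0]⟩
  obtain ⟨B', rfl⟩ : ∃ B', B0 = t b :: B' := by
    cases B0 with
    | nil => simp at hB0
    | cons x l => simp at hB0; exact ⟨l, by rw [hB0]⟩
  have hin : ∀ i, ∀ z ∈ (p i).support, z ∈ W := fun i => res_support (p i) (by
    have := (hst i).1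
    simp only [Finset.mem_insert, Finset.mem_singleton] at this
    rcases this with h | h <;> rw [h] <;> assumption)
  have hpre : ∀ (i : Fin 2) (l : List V), (t i :: l).IsChain G.Adj → (t i :: l).Nodup →
      (∀ x ∈ t i :: l, x ∈ M) →
      ((p i).support ++ l).IsChain G.Adj ∧ ((p i).support ++ l).Nodup := by
    intro i l hc hn hlM
    constructor
    · rw [List.isChain_append]
      refine ⟨(p i).isChain_adj_support.imp fun _ _ h => h.1, ?_, ?_⟩
      · exact hc.tail
      · intro x hx y hy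
        rw [List.getLast?_eq_some_getLast (p i).support_ne_nil, Walk.getLast_support,
          Option.mem_some_iff] at hx
        subst hx
        cases l with
        | nil => simp at hy
        | cons c l =>
          simp at hy
          subst hy
          exact (List.isChain_cons_cons.mp hc).1
    · rw [List.nodup_append']
      refine ⟨(hpath i).support_nodup, hn.tail, fun z h1 h2 => ?_⟩
      have := honly i z h1 (hlM z (List.mem_cons_of_mem _ h2))
      exact (List.nodup_cons.mp hn).1 (this ▸ h2)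
  obtain ⟨hAc', hAn'⟩ := hpre a A' hAc hAn hAM
  obtain ⟨hBc', hBn'⟩ := hpre b B' hBc hBn hBM
  let R0 : Finset V := Finset.univ.filter fun z => (res G (W \ M)).Reachable u z
  have hR0 : R0 ⊆ W \ M := fun z hz => by
    obtain ⟨w⟩ := (Finset.mem_filter.mp hz).2
    exact res_support w (Finset.mem_sdiff.mpr ⟨hu, huM⟩) z w.end_mem_support
  refine ⟨(p a).support ++ A', (p b).support ++ B', ⟨⟨hAn', hBn', hAc', hBc'⟩, ?_, ?_, ?_,
    Fin.cons R0 R, ?_, ?_⟩, ?_, ?_⟩
  · intro x hx
    rcases List.mem_append.mp hx with h | h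
    · exact hin a x h
    · exact hM (hAM x (List.mem_cons_of_mem _ h))
  · intro x hx
    rcases List.mem_append.mp hx with h | h
    · exact hin b x h
    · exact hM (hBM x (List.mem_cons_of_mem _ h))
  · intro x hx hy
    rcases List.mem_append.mp hx with h | h <;> rcases List.mem_append.mp hy with h' | h'
    · exact hab (hdis a b x h h')
    · have := honly a x h (hBM x (List.mem_cons_of_mem _ h'))
      exact hAB (this ▸ List.mem_cons_self) (List.mem_cons_of_mem _ h')
    · have := honly b x h' (hAM x (List.mem_cons_of_mem _ h))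
      exact hAB (List.mem_cons_of_mem _ h) (this ▸ List.mem_cons_self)
    · exact hAB (List.mem_cons_of_mem _ h) (List.mem_cons_of_mem _ h')
  · intro i
    refine Fin.cases ?_ (fun i => ?_) i
    · simp only [Fin.cons_zero]
      refine ⟨fun z hz => (Finset.mem_sdiff.mp (hR0 hz)).1,
        conn_comp (W \ M) u R0 fun z => by simp [R0],
        ⟨u, by simp [R0], List.mem_append.mpr (Or.inl ?_)⟩,
        ⟨v, by simpa [R0] using hreach, List.mem_append.mpr (Or.inl ?_)⟩⟩
      · exact ha ▸ (p a).start_mem_support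
      · exact hb ▸ (p b).start_mem_support
    · simp only [Fin.cons_succ]
      obtain ⟨h1, h2, ⟨x, hx, hxA⟩, ⟨y, hy, hyB⟩⟩ := hR i
      refine ⟨h1.trans hM, h2, ⟨x, hx, ?_⟩, ⟨y, hy, ?_⟩⟩
      · rcases List.mem_cons.mp hxA with rfl | h
        · exact List.mem_append.mpr (Or.inl (p a).end_mem_support)
        · exact List.mem_append.mpr (Or.inr h)
      · rcases List.mem_cons.mp hyB with rfl | h
        · exact List.mem_append.mpr (Or.inl (p b).end_mem_support)
        · exact List.mem_append.mpr (Or.inr h)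
  · have h0 : ∀ i, Disjoint R0 (R i) := fun i => Finset.disjoint_left.mpr fun z h1 h2 =>
      (Finset.mem_sdiff.mp (hR0 h1)).2 ((hR i).1 h2)
    intro i j
    refine Fin.cases ?_ (fun i => ?_) i <;> refine Fin.cases ?_ (fun j => ?_) j <;>
      simp only [Fin.cons_zero, Fin.cons_succ] <;> intro h
    · exact absurd rfl h
    · exact h0 j
    · exact (h0 i).symm
    · exact hRd i j fun e => h (by rw [e])
  · rw [List.head?_append_of_ne_nil _ (p a).support_ne_nil, List.head?_eq_some_head
      (p a).support_ne_nil, Walk.head_support, ha]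
  · rw [List.head?_append_of_ne_nil _ (p b).support_ne_nil, List.head?_eq_some_head
      (p b).support_ne_nil, Walk.head_support, hb]

/-- Disjoint connected sets separating `u` from `v` form the rungs of a ladder. -/
theorem series [Fintype V] [DecidableEq V] {N : ℕ} (hN : NoLad G N) {W : Finset V} {u v : V}
    (hW : TwoConn G W) (hu : u ∈ W) (hv : v ∈ W) (huv : u ≠ v) (F : Finset (Finset V))
    (hF : ∀ M ∈ F, M ⊆ W ∧ u ∉ M ∧ v ∉ M ∧ Conn G M ∧ ¬ (res G (W \ M)).Reachable u v)
    (hd : ∀ M ∈ F, ∀ M' ∈ F, M ≠ M' → Disjoint M M') : F.card < N := by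
  classical
  rcases F.eq_empty_or_nonempty with rfl | ⟨M0, hM0⟩
  · exact lad_lt (W := Finset.univ) (A := []) (B := []) hN
      ⟨by simp, by simp, by simp, by simp, fun i => i.elim0, fun i => i.elim0, fun i => i.elim0⟩
  have hnadj : ¬ G.Adj u v := fun h => by
    obtain ⟨-, h1, h2, -, h3⟩ := hF M0 hM0
    exact h3 (Adj.reachable (show (res G (W \ M0)).Adj u v from
      ⟨h, Finset.mem_sdiff.mpr ⟨hu, h1⟩, Finset.mem_sdiff.mpr ⟨hv, h2⟩⟩))
  set U := (W.erase u).erase v with hU
  let P := U.filter fun x => G.Adj u x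
  let Q := U.filter fun x => G.Adj x v
  have hlink : Linked (res G U) P Q 2 := by
    refine menger _ P Q 2 fun Z hZ => ?_
    by_contra hlt
    obtain ⟨z, hz⟩ : ∃ z, (∀ z' ∈ Z, z' ≠ u → z' ≠ v → z' = z) ∧ z ≠ u ∧ z ≠ v ∨
        ∀ z' ∈ Z, z' = u ∨ z' = v := by
      rcases Z.eq_empty_or_nonempty with rfl | ⟨z, hz⟩
      · exact ⟨u, Or.inr (by simp)⟩
      · have honly : ∀ z' ∈ Z, z' = z := fun z' h => Finset.card_le_one.mp (by omega) z' h z hz
        by_cases h : z = u ∨ z = v
        · exact ⟨u, Or.inr fun z' h' => honly z' h' ▸ h⟩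
        · push Not at h
          exact ⟨z, Or.inl ⟨fun z' h' _ _ => honly z' h', h⟩⟩
    obtain ⟨q, hqW, hqZ⟩ : ∃ q : G.Walk u v, (∀ c ∈ q.support, c ∈ W) ∧
        ∀ c ∈ q.support, c ∈ Z → c = u ∨ c = v := by
      rcases hz with ⟨honly, hzu, hzv⟩ | hall
      · have hcon : Conn G (W.erase z) := by
          by_cases hzW : z ∈ W
          · exact hW.2.2 z hzW
          · rw [Finset.erase_eq_of_notMem hzW]; exact hW.2.1
        have hu' := Finset.mem_erase.mpr ⟨hzu.symm, hu⟩
        obtain ⟨p⟩ := hcon u hu' v (Finset.mem_erase.mpr ⟨hzv.symm, hv⟩)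
        refine ⟨p.mapLe (res_le _ _), fun c hc => ?_, fun c hc hcZ => ?_⟩ <;>
          rw [Walk.support_mapLe_eq_support] at hc
        · exact Finset.mem_of_mem_erase (res_support p hu' c hc)
        · by_contra hne
          push Not at hne
          exact Finset.ne_of_mem_erase (res_support p hu' c hc) (honly c hcZ hne.1 hne.2)
      · obtain ⟨p⟩ := hW.2.1 u hu v hv
        refine ⟨p.mapLe (res_le _ _), fun c hc => ?_, fun c hc hcZ => hall c hcZ⟩
        rw [Walk.support_mapLe_eq_support] at hc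
        exact res_support p hu c hc
    obtain ⟨r, hr, hrsub⟩ : ∃ r : G.Walk u v, r.IsPath ∧ r.support ⊆ q.support :=
      ⟨q.bypass, q.bypass_isPath, Walk.support_bypass_subset_support _⟩
    cases r with
    | nil => exact huv rfl
    | @cons _ c _ hc r =>
      rw [Walk.cons_isPath_iff] at hr
      have hcv : c ≠ v := fun e => hnadj (e ▸ hc)
      obtain ⟨d, r', hd', hr's⟩ : ∃ (d : V) (r' : G.Walk c d), G.Adj d v ∧
          ∀ x ∈ r'.support, x ∈ r.support ∧ x ≠ v := by
        have hrv := hr.1.reverse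
        cases hrev : r.reverse with
        | nil => exact absurd rfl hcv
        | @cons _ d _ hd' w =>
          rw [hrev, Walk.cons_isPath_iff] at hrv
          refine ⟨d, w.reverse, hd'.symm, fun x hx => ?_⟩
          rw [Walk.support_reverse, List.mem_reverse] at hx
          refine ⟨?_, fun e => hrv.2 (e ▸ hx)⟩
          have : x ∈ r.reverse.support := by rw [hrev]; simp [hx]
          simpa using this
      have hmemU : ∀ x ∈ r'.support, x ∈ U ∧ x ∉ Z := by
        intro x hx
        obtain ⟨h1, h2⟩ := hr's x hx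
        have h3 : x ∈ q.support := hrsub (List.mem_cons_of_mem _ h1)
        have hxu : x ≠ u := fun e => hr.2 (e ▸ h1)
        refine ⟨Finset.mem_erase.mpr ⟨h2, Finset.mem_erase.mpr ⟨hxu, hqW x h3⟩⟩, fun hxZ => ?_⟩
        rcases hqZ x h3 hxZ with e | e
        · exact hxu e
        · exact h2 e
      obtain ⟨w, hw⟩ := to_res (W := U) r' fun x hx => (hmemU x hx).1
      obtain ⟨z', hz', hzw⟩ := hZ c
        (Finset.mem_filter.mpr ⟨(hmemU c r'.start_mem_support).1, hc⟩) d
        (Finset.mem_filter.mpr ⟨(hmemU d r'.end_mem_support).1, hd'⟩) w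
      exact (hmemU z' (hw ▸ hzw)).2 hz'
  obtain ⟨s, t, p, hst, hdis⟩ := hlink
  let r := fun i => (p i).bypass
  have hsub : ∀ i, (r i).support ⊆ (p i).support := fun i =>
    Walk.support_bypass_subset_support _
  have hrU : ∀ i, ∀ z ∈ (p i).support, z ∈ U := fun i =>
    res_support (p i) (Finset.mem_filter.mp (hst i).1).1
  have hUW : ∀ z ∈ U, z ∈ W := fun z hz => Finset.mem_of_mem_erase (Finset.mem_of_mem_erase hz)
  have hhit : ∀ i, ∀ M ∈ F, ∃ z ∈ M, z ∈ (r i).support := by
    intro i M hM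
    obtain ⟨-, h1, h2, -, h3⟩ := hF M hM
    by_contra hno
    push Not at hno
    have hadj1 := (Finset.mem_filter.mp (hst i).1).2
    have hadj2 := (Finset.mem_filter.mp (hst i).2).2
    obtain ⟨w, -⟩ := to_res (W := W \ M)
      (Walk.cons hadj1 (((r i).mapLe (res_le _ _)).concat hadj2)) (by
        intro z hz
        simp only [Walk.support_cons, Walk.support_concat, Walk.support_mapLe_eq_support,
          List.mem_cons, List.mem_append, List.not_mem_nil, or_false] at hz
        rcases hz with rfl | hz | rfl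
        · exact Finset.mem_sdiff.mpr ⟨hu, h1⟩
        · exact Finset.mem_sdiff.mpr ⟨hUW z (hrU i z (hsub i hz)), fun h => hno z h hz⟩
        · exact Finset.mem_sdiff.mpr ⟨hv, h2⟩)
    exact h3 ⟨w⟩
  let e := F.equivFin.symm
  refine lad_lt (W := Finset.univ) (A := (r 0).support) (B := (r 1).support) hN
    ⟨⟨(p 0).bypass_isPath.support_nodup, (p 1).bypass_isPath.support_nodup,
      (r 0).isChain_adj_support.imp fun _ _ h => h.1,
      (r 1).isChain_adj_support.imp fun _ _ h => h.1⟩,
    fun _ _ => Finset.mem_univ _, fun _ _ => Finset.mem_univ _,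
    fun z h0 h1 => absurd (hdis 0 1 z (hsub 0 h0) (hsub 1 h1)) (by decide),
    fun i => (e i).1, fun i => ⟨Finset.subset_univ _, (hF _ (e i).2).2.2.2.1,
      hhit 0 _ (e i).2, hhit 1 _ (e i).2⟩,
    fun i j hij => hd _ (e i).2 _ (e j).2 fun h => hij (e.injective (Subtype.ext h))⟩

/-- Sets that are not 2-connected split into smaller ones. -/
theorem emb_reduce [Fintype V] [DecidableEq V] {W : Finset V} {C : ℝ} (hC : 1 ≤ C)
    (hsmall : ∀ W' ⊆ W, W'.card < W.card → Emb G W' C) (hnot : ¬ TwoConn G W) : Emb G W C := by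
  classical
  by_cases h2 : W.card ≤ 2
  · exact emb_mono hC (emb_small h2)
  by_cases hcon : Conn G W
  swap
  · simp only [Conn, not_forall] at hcon
    obtain ⟨x, hx, y, hy, hxy⟩ := hcon
    set W1 := W.filter fun z => (res G W).Reachable x z with hW1
    have hx1 : x ∈ W1 := Finset.mem_filter.mpr ⟨hx, Reachable.refl x⟩
    have hy1 : y ∉ W1 := fun h => hxy (Finset.mem_filter.mp h).2
    have hst : ∀ a b, (res G W).Adj a b → (a ∈ W1 ↔ b ∈ W1) := fun a b h => by
      simp only [hW1, Finset.mem_filter, h.2.1, h.2.2, true_and]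
      exact ⟨fun hh => hh.trans h.reachable, fun hh => hh.trans h.symm.reachable⟩
    refine emb_union (W1 := W1) (W2 := W \ W1)
      (Finset.union_sdiff_of_subset (Finset.filter_subset _ _)).symm Finset.disjoint_sdiff
      (fun a b h => ⟨hst a b h, by simp [Finset.mem_sdiff, h.2.1, h.2.2, hst a b h]⟩)
      (hsmall _ (Finset.filter_subset _ _) ?_) (hsmall _ Finset.sdiff_subset ?_)
    · exact Finset.card_lt_card ⟨Finset.filter_subset _ _, fun h => hy1 (h hy)⟩
    · exact Finset.card_lt_card ⟨Finset.sdiff_subset, fun h =>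
        (Finset.mem_sdiff.mp (h hx)).2 hx1⟩
  obtain ⟨z, hz, hzc⟩ : ∃ z ∈ W, ¬ Conn G (W.erase z) := by
    by_contra h
    push Not at h
    exact hnot ⟨by omega, hcon, h⟩
  simp only [Conn, not_forall] at hzc
  obtain ⟨x, hx, y, hy, hxy⟩ := hzc
  set K := (W.erase z).filter fun c => (res G (W.erase z)).Reachable x c with hK
  have hKW : K ⊆ W := (Finset.filter_subset _ _).trans (Finset.erase_subset _ _)
  have hzK : z ∉ K := fun h => Finset.ne_of_mem_erase (Finset.mem_filter.mp h).1 rfl
  have hstep : ∀ a b, (res G W).Adj a b → a ∈ K → b = z ∨ b ∈ K := by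
    intro a b h ha
    by_cases hb : b = z
    · exact Or.inl hb
    · obtain ⟨ha1, ha2⟩ := Finset.mem_filter.mp ha
      have hb1 := Finset.mem_erase.mpr ⟨hb, h.2.2⟩
      exact Or.inr (Finset.mem_filter.mpr ⟨hb1,
        ha2.trans (Adj.reachable (show (res G (W.erase z)).Adj a b from ⟨h.1, ha1, hb1⟩))⟩)
  have hy1 : y ∉ K := fun h => hxy (Finset.mem_filter.mp h).2
  refine emb_cut (z := z) (W1 := insert z K) (W2 := W \ K) (by linarith) ?_ ?_ ?_
    (hsmall _ (Finset.insert_subset hz hKW) ?_) (hsmall _ Finset.sdiff_subset ?_)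
  · ext c
    simp only [Finset.mem_union, Finset.mem_insert, Finset.mem_sdiff]
    constructor
    · intro h
      by_cases hc : c ∈ K
      · exact Or.inl (Or.inr hc)
      · exact Or.inr ⟨h, hc⟩
    · rintro ((rfl | h) | h)
      exacts [hz, hKW h, h.1]
  · ext c
    simp only [Finset.mem_inter, Finset.mem_insert, Finset.mem_sdiff, Finset.mem_singleton]
    constructor
    · rintro ⟨h | h, -, h'⟩
      · exact h
      · exact absurd h h'
    · rintro rfl
      exact ⟨Or.inl rfl, hz, hzK⟩
  · intro a b h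
    simp only [Finset.mem_insert, Finset.mem_sdiff]
    by_cases ha : a ∈ K
    · exact Or.inl ⟨Or.inr ha, hstep a b h ha⟩
    by_cases hb : b ∈ K
    · exact Or.inl ⟨hstep b a h.symm hb, Or.inr hb⟩
    exact Or.inr ⟨⟨h.2.1, ha⟩, h.2.2, hb⟩
  · refine Finset.card_lt_card ⟨Finset.insert_subset hz hKW, fun h => ?_⟩
    rcases Finset.mem_insert.mp (h (Finset.mem_of_mem_erase hy)) with e | e
    · exact Finset.ne_of_mem_erase hy e
    · exact hy1 e
  · refine Finset.card_lt_card ⟨Finset.sdiff_subset, fun h => ?_⟩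
    exact (Finset.mem_sdiff.mp (h (Finset.mem_of_mem_erase hx))).2
      (Finset.mem_filter.mpr ⟨hx, Reachable.refl x⟩)

/-- The distortion bound. -/
def cst (N : ℕ) : ℕ → ℕ
  | 0 => 1
  | g + 1 => 256 * cst N g + 128 * (8 + Nat.log 2 (hit N N + 2))

theorem one_le_cst (N : ℕ) : ∀ g, 1 ≤ cst N g
  | 0 => le_rfl
  | g + 1 => by have := one_le_cst N g; simp only [cst]; omega

theorem emb_main [Fintype V] [DecidableEq V] {N : ℕ} (hN : NoLad G N) :
    ∀ (g : ℕ) (W : Finset V), (∀ M ⊆ W, TwoConn G M → ¬ Good G M g) →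
      Emb G W (cst N g : ℝ) := by
  classical
  intro g
  induction g with
  | zero =>
    intro W
    induction W using Finset.strongInduction with
    | _ W ih =>
      intro hW
      refine emb_reduce (by simp [cst]) (fun W' h' hlt => ?_) ?_
      · exact ih W' (Finset.ssubset_iff_subset_ne.mpr ⟨h', fun e => by simp [e] at hlt⟩)
          fun M hM => hW M (hM.trans h')
      · intro h2
        refine hW W (Finset.Subset.refl _) h2 fun u hu v hv huv =>
          ⟨[u], [v], ⟨⟨by simp, by simp, by simp, by simp⟩, by simpa using hu, by simpa using hv,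
            by simp [huv.symm], fun i => i.elim0, fun i => i.elim0, fun i => i.elim0⟩, rfl, rfl⟩
  | succ g ihg =>
    intro W
    induction W using Finset.strongInduction with
    | _ W ih =>
      intro hW
      by_cases h2 : TwoConn G W
      swap
      · refine emb_reduce (by exact_mod_cast one_le_cst N (g + 1)) (fun W' h' hlt => ?_) h2
        exact ih W' (Finset.ssubset_iff_subset_ne.mpr ⟨h', fun e => by simp [e] at hlt⟩)
          fun M hM => hW M (hM.trans h')
      have hbad := hW W (Finset.Subset.refl _) h2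
      simp only [Good, not_forall] at hbad
      obtain ⟨u, hu, v, hv, huv, hno⟩ := hbad
      let 𝔐 := W.powerset.filter fun M => u ∉ M ∧ v ∉ M ∧ TwoConn G M ∧ Good G M g
      have h𝔐 : ∀ M ∈ 𝔐, M ⊆ W ∧ u ∉ M ∧ v ∉ M ∧ TwoConn G M ∧ Good G M g := fun M hM =>
        ⟨Finset.mem_powerset.mp (Finset.mem_filter.mp hM).1, (Finset.mem_filter.mp hM).2⟩
      obtain ⟨Y, hY, hYhit⟩ := hit_family hN N 𝔐
        (fun M hM => ⟨(h𝔐 M hM).2.2.2.1.2.1,
          Finset.card_pos.mp (lt_of_lt_of_le (by norm_num) (h𝔐 M hM).2.2.2.1.1)⟩)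
        (fun F hF hFd => le_of_lt (series hN h2 hu hv huv F (fun M hM => by
          obtain ⟨a, b, c, d, e⟩ := h𝔐 M (hF hM)
          exact ⟨a, b, c, d.2.1, fun hr => hno (extend h2 hu hv huv a b c d e hr)⟩) hFd))
      let S := insert u (insert v Y)
      have hsub := ihg (W \ S) fun M hM h2M hgood => by
        have hMS : ∀ x ∈ M, x ∈ W ∧ x ∉ S := fun x hx => Finset.mem_sdiff.mp (hM hx)
        obtain ⟨y, hy, hyM⟩ := hYhit M (Finset.mem_filter.mpr
          ⟨Finset.mem_powerset.mpr fun x hx => (hMS x hx).1,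
            fun h => (hMS u h).2 (by simp [S]), fun h => (hMS v h).2 (by simp [S]), h2M, hgood⟩)
        exact (hMS y hyM).2 (by simp [S, hy])
      refine emb_mono ?_ (emb_apex (S := S) (Nat.cast_nonneg _) h2.2.1
        ⟨u, Finset.mem_inter.mpr ⟨by simp [S], hu⟩⟩ hsub)
      have hcard : S.card ≤ hit N N + 2 := by
        have h1 := Finset.card_insert_le u (insert v Y)
        have h3 := Finset.card_insert_le v Y
        simp only [S]
        omega
      have : (Nat.log 2 S.card : ℝ) ≤ (Nat.log 2 (hit N N + 2) : ℝ) := by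
        exact_mod_cast Nat.log_mono_right hcard
      simp only [cst]
      push_cast
      linarith

/-- Connected graphs without `N`-rung ladders embed with distortion `cst N N`. -/
theorem emb_of_noLad [Fintype V] (hc : G.Connected) {N : ℕ} (hN : NoLad G N) (ℓ : Sym2 V → ℝ)
    (hℓ : ∀ u v, G.Adj u v → 0 ≤ ℓ s(u, v)) :
    ∃ (m : ℕ) (f : V → Fin m → ℝ), ∀ x y,
      pathDist G ℓ x y ≤ ∑ i, |f x i - f y i| ∧
        ∑ i, |f x i - f y i| ≤ (cst N N : ℝ) * pathDist G ℓ x y := by
  classical
  obtain ⟨m, f, hf⟩ := emb_main hN N Finset.univ (fun M _ h2 hgood => by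
    obtain ⟨a, ha, b, hb, hab⟩ := Finset.one_lt_card.mp (lt_of_lt_of_le (by norm_num) h2.1)
    obtain ⟨A, B, hl, -⟩ := hgood a ha b hb hab
    exact hN M A B hl) ℓ hℓ
  have he : res G Finset.univ = G := by
    ext a b
    exact ⟨fun h => h.1, fun h => ⟨h, Finset.mem_univ _, Finset.mem_univ _⟩⟩
  rw [he] at hf
  exact ⟨m, f, fun x y => hf x (Finset.mem_univ _) y (Finset.mem_univ _) (hc x y)⟩

end Vale.Agent.P235.Ladder
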